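import Mathlib

/-!
# P198: hyperbolic 3-space, upper half-space model

`H3` is the set of pairs `(z, t)` with `z` complex and `t > 0` with the distance given by
`cosh d = 1 + (|z - z'|^2 + (t - t')^2) / (2 t t')`.
-/

open Real Metric

namespace P198H

/-- Hyperbolic 3-space, upper half-space model. -/
@[ext] structure H3 where
  z : ℂ
  t : ℝ
  t_pos : 0 < t

namespace H3

/-- The underlying point of the Euclidean space `ℂ × ℝ`. -/
noncomputable def toE (p : H3) : WithLp 2 (ℂ × ℝ) := WithLp.toLp 2 (p.z, p.t)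

/-- The mirror image in the boundary plane. -/
noncomputable def bar (p : H3) : WithLp 2 (ℂ × ℝ) := WithLp.toLp 2 (p.z, -p.t)

theorem dist_toE (p q : H3) :
    dist p.toE q.toE = √(‖p.z - q.z‖ ^ 2 + (p.t - q.t) ^ 2) := by
  rw [toE, toE, WithLp.prod_dist_eq_of_L2]
  simp [dist_eq_norm]

theorem dist_toE_bar (p q : H3) :
    dist p.toE q.bar = √(‖p.z - q.z‖ ^ 2 + (p.t + q.t) ^ 2) := by
  rw [toE, bar, WithLp.prod_dist_eq_of_L2]
  simp [dist_eq_norm]

theorem dist_toE_sq (p q : H3) :
    dist p.toE q.toE ^ 2 = ‖p.z - q.z‖ ^ 2 + (p.t - q.t) ^ 2 := by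
  rw [dist_toE, sq_sqrt (by positivity)]

theorem dist_toE_bar_sq (p q : H3) :
    dist p.toE q.bar ^ 2 = ‖p.z - q.z‖ ^ 2 + (p.t + q.t) ^ 2 := by
  rw [dist_toE_bar, sq_sqrt (by positivity)]

theorem dist_toE_bar_self (p : H3) : dist p.toE p.bar = 2 * p.t := by
  rw [dist_toE_bar]
  have h := p.t_pos
  rw [sub_self, norm_zero, show (0 : ℝ) ^ 2 + (p.t + p.t) ^ 2 = (2 * p.t) ^ 2 by ring,
    sqrt_sq (by positivity)]

theorem dist_toE_bar_comm (p q : H3) : dist p.toE q.bar = dist q.toE p.bar := by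
  rw [dist_toE_bar, dist_toE_bar, norm_sub_rev, add_comm p.t]

noncomputable instance : Dist H3 :=
  ⟨fun p q => 2 * arsinh (dist p.toE q.toE / (2 * √(p.t * q.t)))⟩

theorem dist_eq (p q : H3) : dist p q = 2 * arsinh (dist p.toE q.toE / (2 * √(p.t * q.t))) :=
  rfl

theorem sinh_half_dist (p q : H3) :
    sinh (dist p q / 2) = dist p.toE q.toE / (2 * √(p.t * q.t)) := by
  rw [dist_eq, mul_div_cancel_left₀ (arsinh _) two_ne_zero, sinh_arsinh]

theorem cosh_half_dist (p q : H3) :
    cosh (dist p q / 2) = dist p.toE q.bar / (2 * √(p.t * q.t)) := by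
  have hp := p.t_pos
  have hq := q.t_pos
  have h1 : 0 < p.t * q.t := mul_pos hp hq
  rw [← sq_eq_sq₀ (cosh_pos _).le (by positivity), cosh_sq', sinh_half_dist, div_pow, div_pow,
    one_add_div (by positivity), mul_pow, sq_sqrt h1.le, dist_toE_sq, dist_toE_bar_sq]
  congr 1
  ring

theorem cosh_dist (p q : H3) :
    cosh (dist p q) = 1 + (‖p.z - q.z‖ ^ 2 + (p.t - q.t) ^ 2) / (2 * p.t * q.t) := by
  have hp := p.t_pos
  have hq := q.t_pos
  have h1 : 0 < p.t * q.t := mul_pos hp hq
  rw [dist_eq, cosh_two_mul, cosh_sq', add_assoc, ← two_mul, sinh_arsinh, div_pow, mul_pow,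
    sq_sqrt h1.le, dist_toE_sq]
  field_simp

theorem sinh_half_dist_add_dist (a b c : H3) : sinh ((dist a b + dist b c) / 2) =
    (dist a.toE b.toE * dist c.toE b.bar + dist b.toE c.toE * dist a.toE b.bar) /
      (2 * √(a.t * c.t) * dist b.toE b.bar) := by
  have ha := a.t_pos
  have hb := b.t_pos
  have hc := c.t_pos
  rw [add_div, sinh_add, sinh_half_dist, sinh_half_dist, cosh_half_dist, cosh_half_dist,
    dist_toE_bar_self, dist_toE_bar_comm b c, sqrt_mul ha.le, sqrt_mul ha.le, sqrt_mul hb.le]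
  have h1 : √b.t * √b.t = b.t := mul_self_sqrt hb.le
  have hsa : 0 < √a.t := sqrt_pos.2 ha
  have hsb : 0 < √b.t := sqrt_pos.2 hb
  have hsc : 0 < √c.t := sqrt_pos.2 hc
  have h2 : 2 * b.t = 2 * (√b.t * √b.t) := by rw [h1]
  rw [h2]
  field_simp

protected theorem dist_comm (p q : H3) : dist p q = dist q p := by
  rw [dist_eq, dist_eq, dist_comm p.toE, mul_comm p.t]

theorem dist_le_iff_le_sinh {p q : H3} {r : ℝ} :
    dist p q ≤ r ↔ dist p.toE q.toE / (2 * √(p.t * q.t)) ≤ sinh (r / 2) := by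
  rw [← div_le_div_iff_of_pos_right (zero_lt_two' ℝ), ← sinh_le_sinh, sinh_half_dist]

protected theorem dist_triangle (a b c : H3) : dist a c ≤ dist a b + dist b c := by
  have ha := a.t_pos
  have hb := b.t_pos
  have hc := c.t_pos
  have h1 : 0 < a.t * c.t := mul_pos ha hc
  rw [dist_le_iff_le_sinh, sinh_half_dist_add_dist, div_mul_eq_div_div _ _ (dist _ _),
    le_div_iff₀, div_mul_eq_mul_div]
  · gcongr
    exact EuclideanGeometry.mul_dist_le_mul_dist_add_mul_dist a.toE b.toE c.toE b.bar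
  · rw [dist_toE_bar_self]
    positivity

theorem toE_injective : Function.Injective toE := by
  intro p q h
  have h2 : (p.z, p.t) = (q.z, q.t) := by
    have := congrArg (WithLp.ofLp) h
    simpa [toE] using this
  rw [Prod.mk.injEq] at h2
  exact H3.ext h2.1 h2.2

noncomputable instance : MetricSpace H3 where
  dist_self p := by rw [dist_eq, dist_self, zero_div, arsinh_zero, mul_zero]
  dist_comm := H3.dist_comm
  dist_triangle := H3.dist_triangle
  eq_of_dist_eq_zero {p q} h := by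
    have hp := p.t_pos
    have hq := q.t_pos
    have h1 : 0 < p.t * q.t := mul_pos hp hq
    rw [dist_eq] at h
    have h2 : dist p.toE q.toE / (2 * √(p.t * q.t)) = 0 := by
      rw [← arsinh_eq_zero_iff]
      linarith
    have h3 : 0 < 2 * √(p.t * q.t) := by positivity
    rw [div_eq_zero_iff] at h2
    rcases h2 with h2 | h2
    · exact toE_injective (dist_eq_zero.1 h2)
    · exact absurd h2 h3.ne'

end H3

end P198H
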