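import Vale.Agent.P198.H3.Geo2

/-!
# P198, block E3: the geometric action, final theorem
-/

open Real Metric Matrix OnePoint Filter Topology
open scoped ComplexConjugate

namespace P198H

open H3

theorem V_comm (p : H3) (x y : OnePoint ℂ) : p.V x y = p.V y x := by
  have : dtv (vec x) (vec y) = - dtv (vec y) (vec x) := by
    rw [dtv, dtv]
    ring
  rw [V, V, Vv, Vv, this, norm_neg, mul_comm (p.Qf (vec x))]

/-- three well separated points seen from `p` -/
noncomputable def tri (p : H3) : Fin 3 → OnePoint ℂ :=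
  ![((p.z : ℂ) : OnePoint ℂ), ((p.z + p.t : ℂ) : OnePoint ℂ), ∞]

theorem tri_ge (p : H3) (i j : Fin 3) (hij : i ≠ j) : 1 / 4 ≤ p.V (tri p i) (tri p j) := by
  have ht := p.t_pos
  have e : p.t ^ 2 / p.t = p.t := by field_simp
  have e2 : p.t ^ 2 / (p.t * (p.t + p.t)) = 1 / 2 := by
    field_simp
    ring
  have e3 : p.t * (p.t + p.t)⁻¹ = 1 / 2 := by
    field_simp
    ring
  have h01 : 1 / 4 ≤ p.V (tri p 0) (tri p 1) := by
    have e0 : tri p 0 = ((p.z : ℂ) : OnePoint ℂ) := rfl
    have e1 : tri p 1 = ((p.z + p.t : ℂ) : OnePoint ℂ) := rfl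
    rw [e0, e1, V, Vv, vec_coe, vec_coe, Qf, Qf, dtv]
    simp
    rw [e, e2]
    norm_num
  have h02 : 1 / 4 ≤ p.V (tri p 0) (tri p 2) := by
    have e0 : tri p 0 = ((p.z : ℂ) : OnePoint ℂ) := rfl
    have e1 : tri p 2 = ∞ := rfl
    rw [e0, e1, V, Vv, vec_coe, vec_infty, Qf, Qf, dtv]
    simp
    rw [mul_inv_cancel₀ ht.ne']
    norm_num
  have h12 : 1 / 4 ≤ p.V (tri p 1) (tri p 2) := by
    have e0 : tri p 1 = ((p.z + p.t : ℂ) : OnePoint ℂ) := rfl
    have e1 : tri p 2 = ∞ := rfl
    rw [e0, e1, V, Vv, vec_coe, vec_infty, Qf, Qf, dtv]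
    simp
    rw [e, e3]
    norm_num
  fin_cases i <;> fin_cases j <;>
    first
      | exact absurd rfl hij
      | assumption
      | (rw [V_comm]; assumption)

theorem tri_ne (p : H3) (i j : Fin 3) (hij : i ≠ j) : tri p i ≠ tri p j := by
  intro h
  have := tri_ge p i j hij
  rw [h, V_self] at this
  norm_num at this

theorem continuous_V_h {Z : Type*} [MetricSpace Z] (h : Z ≃ₜ OnePoint ℂ) :
    Continuous (fun x : Z × Z => o.V (h x.1) (h x.2)) := by
  have h1 : Continuous (fun x : Z × Z => (h x.1, h x.2)) := by fun_prop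
  have h3 := continuous_V_o.comp h1
  have h4 : ((fun q : OnePoint ℂ × OnePoint ℂ => o.V q.1 q.2) ∘
      fun x : Z × Z => (h x.1, h x.2)) = (fun x : Z × Z => o.V (h x.1) (h x.2)) := by
    funext x
    rfl
  rw [← h4]
  exact h3

theorem exists_V_ge {Z : Type*} [MetricSpace Z] [CompactSpace Z] (h : Z ≃ₜ OnePoint ℂ) {c : ℝ}
    (hc : 0 < c) : ∃ c' : ℝ, 0 < c' ∧ ∀ a b : Z, c ≤ dist a b → c' ≤ o.V (h a) (h b) := by
  have hcl : IsClosed {x : Z × Z | c ≤ dist x.1 x.2} := isClosed_le (by fun_prop) (by fun_prop)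
  have hcont : Continuous (fun x : Z × Z => o.V (h x.1) (h x.2)) := continuous_V_h h
  obtain ⟨c', hc', hh⟩ := hcl.isCompact.exists_forall_le' (a := 0) hcont.continuousOn (by
    intro x hx
    apply V_o_pos
    intro he
    have he2 := h.injective he
    simp only [Set.mem_ofPred_eq] at hx
    rw [he2, dist_self] at hx
    linarith)
  exact ⟨c', hc', fun a b hab => hh (a, b) hab⟩

theorem exists_dist_ge {Z : Type*} [MetricSpace Z] [CompactSpace Z] (h : Z ≃ₜ OnePoint ℂ) {c : ℝ}
    (hc : 0 < c) : ∃ c' : ℝ, 0 < c' ∧ ∀ a b : Z, c ≤ o.V (h a) (h b) → c' ≤ dist a b := by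
  have hcont : Continuous (fun x : Z × Z => o.V (h x.1) (h x.2)) := continuous_V_h h
  have hcl : IsClosed {x : Z × Z | c ≤ o.V (h x.1) (h x.2)} := isClosed_le (by fun_prop) hcont
  obtain ⟨c', hc', hh⟩ := hcl.isCompact.exists_forall_le' (a := 0)
    (f := fun x : Z × Z => dist x.1 x.2) (by fun_prop) (by
    intro x hx
    apply dist_pos.2
    intro he
    simp only [Set.mem_ofPred_eq] at hx
    rw [he, V_self] at hx
    linarith)
  exact ⟨c', hc', fun a b hab => hh (a, b) hab⟩

/-- **Geometric action.** A group satisfying the axioms `QM` on a compact metric space homeomorphic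
to the Riemann sphere such that all elements become Moebius or anti-Moebius acts geometrically on
hyperbolic 3-space. -/
theorem geometric_of_moebius {G Z : Type*} [Group G] [MetricSpace Z] [CompactSpace Z]
    [MulAction G Z] (q : P198Q.QM G Z) (h : Z ≃ₜ OnePoint ℂ)
    (hm : ∀ g : G, IsMoeb (fun x => h (g • h.symm x))) :
    ∃ ρ : G →* (H3 ≃ᵢ H3),
      (∀ K : Set H3, IsCompact K → {g : G | ((ρ g) '' K ∩ K).Nonempty}.Finite) ∧
      ∃ K : Set H3, IsCompact K ∧ ⋃ g : G, (ρ g) '' K = Set.univ := by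
  choose F hFV hFd using fun g : G => (hm g).exists_ext
  -- the boundary maps
  have hf1 : ∀ x, h ((1 : G) • h.symm x) = x := by
    intro x
    rw [one_smul, h.apply_symm_apply]
  have hfm : ∀ (g k : G) x, h ((g * k) • h.symm x) = h (g • h.symm (h (k • h.symm x))) := by
    intro g k x
    rw [h.symm_apply_apply, mul_smul]
  have hfs : ∀ (g : G) x, ∃ y, h (g • h.symm y) = x := by
    intro g x
    refine ⟨h (g⁻¹ • h.symm x), ?_⟩
    rw [h.symm_apply_apply, smul_inv_smul, h.apply_symm_apply]
  -- composition law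
  have hF1 : ∀ p, F 1 p = p := by
    intro p
    apply V_inj
    intro x y
    have := hFV 1 p x y
    rw [hf1, hf1] at this
    exact this
  have hFm : ∀ (g k : G) p, F (g * k) p = F g (F k p) := by
    intro g k p
    apply V_inj
    intro x y
    obtain ⟨x', rfl⟩ := hfs (g * k) x
    obtain ⟨y', rfl⟩ := hfs (g * k) y
    have e1 := hFV (g * k) p x' y'
    have e2 := hFV g (F k p) (h (k • h.symm x')) (h (k • h.symm y'))
    have e3 := hFV k p x' y'
    rw [e1, hfm, hfm, e2, e3]
  let ρ : G →* (H3 ≃ᵢ H3) :=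
    { toFun := fun g =>
        { toFun := F g
          invFun := F g⁻¹
          left_inv := fun p => by rw [← hFm, inv_mul_cancel, hF1]
          right_inv := fun p => by rw [← hFm, mul_inv_cancel, hF1]
          isometry_toFun := Isometry.of_dist_eq (hFd g) }
      map_one' := by
        ext1 p
        exact hF1 p
      map_mul' := by
        intro g k
        ext1 p
        exact hFm g k p }
  have hρ : ∀ g p, ρ g p = F g p := fun g p => rfl
  -- bounded diameter
  obtain ⟨D₀, hD₀⟩ := Metric.isBounded_iff.1 (isCompact_univ (X := Z)).isBounded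
  set D : ℝ := max D₀ 1 with hDdef
  have hD1 : 1 ≤ D := le_max_right _ _
  have hD : ∀ x y : Z, dist x y ≤ D := fun x y =>
    (hD₀ (Set.mem_univ x) (Set.mem_univ y)).trans (le_max_left _ _)
  have hC : 0 < q.C := lt_of_lt_of_le one_pos q.one_le_C
  refine ⟨ρ, ?_, ?_⟩
  · -- proper
    intro K hK
    obtain ⟨R, hR⟩ := hK.isBounded.subset_closedBall o
    set M : ℝ := 2 * cosh (2 * R) with hM
    have hM0 : 0 < M := by
      have := cosh_pos (2 * R)
      positivity
    have hpos : 0 < 1 / 4 / (M * M) := by positivity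
    obtain ⟨c, hc, hcc⟩ := exists_dist_ge h hpos
    -- the fixed triple
    set a : Fin 3 → Z := fun i => h.symm (tri o i) with ha
    have hane : ∀ i j, i ≠ j → a i ≠ a j := fun i j hij he => tri_ne o i j hij (h.symm.injective he)
    set δ : ℝ := min (dist (a 0) (a 1)) (min (dist (a 0) (a 2)) (dist (a 1) (a 2))) with hδ
    have hδ0 : 0 < δ := lt_min (dist_pos.2 (hane 0 1 (by decide)))
      (lt_min (dist_pos.2 (hane 0 2 (by decide))) (dist_pos.2 (hane 1 2 (by decide))))
    have hδa : ∀ i j, i ≠ j → δ ≤ dist (a i) (a j) := by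
      have h01 : δ ≤ dist (a 0) (a 1) := min_le_left _ _
      have h02 : δ ≤ dist (a 0) (a 2) := (min_le_right _ _).trans (min_le_left _ _)
      have h12 : δ ≤ dist (a 1) (a 2) := (min_le_right _ _).trans (min_le_right _ _)
      intro i j hij
      fin_cases i <;> fin_cases j <;>
        first
          | exact absurd rfl hij
          | assumption
          | (rw [dist_comm]; assumption)
    refine (finite_of_s_ge q hD (c := c * (δ / 2 * (δ / 2)) / (q.C * D)) (by positivity)).subset ?_
    intro g hg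
    obtain ⟨p, ⟨k, hk, rfl⟩, hp⟩ := hg
    have hR1 : dist k o ≤ R := hR hk
    have hR2 : dist (ρ g k) o ≤ R := hR hp
    have hdist : dist (F g o) o ≤ 2 * R := by
      have e1 : dist (F g o) (ρ g k) = dist o k := hFd g o k
      have := dist_triangle (F g o) (ρ g k) o
      rw [e1, dist_comm o k] at this
      linarith
    have hR0 : 0 ≤ 2 * R := dist_nonneg.trans hdist
    have hcosh : 2 * cosh (dist (F g o) o) ≤ M := by
      have : cosh (dist (F g o) o) ≤ cosh (2 * R) := by
        rw [cosh_le_cosh, abs_of_nonneg dist_nonneg, abs_of_nonneg hR0]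
        exact hdist
      linarith
    have hsep : ∀ i j, i ≠ j → c ≤ dist (g • a i) (g • a j) := by
      intro i j hij
      apply hcc
      have e1 := hFV g o (tri o i) (tri o j)
      have e2 := tri_ge o i j hij
      rw [← e1, V, Vv_ratio _ (vec_ne _) (vec_ne _)] at e2
      change 1 / 4 / (M * M) ≤ o.Vv (vec (h (g • h.symm (tri o i)))) (vec (h (g • h.symm (tri o j))))
      set v := vec (h (g • h.symm (tri o i)))
      set w := vec (h (g • h.symm (tri o j)))
      have hv : v ≠ 0 := vec_ne _
      have hw : w ≠ 0 := vec_ne _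
      have k1 : o.Qf v / (F g o).Qf v ≤ M := by
        rw [div_le_iff₀ ((F g o).Qf_pos hv)]
        refine (Qf_o_le (F g o) v).trans ?_
        have := (F g o).Qf_pos hv
        gcongr
      have k2 : o.Qf w / (F g o).Qf w ≤ M := by
        rw [div_le_iff₀ ((F g o).Qf_pos hw)]
        refine (Qf_o_le (F g o) w).trans ?_
        have := (F g o).Qf_pos hw
        gcongr
      have k3 : 0 < o.Qf w / (F g o).Qf w := div_pos (o.Qf_pos hw) ((F g o).Qf_pos hw)
      have k4 : 0 ≤ o.Vv v w := by
        rw [Vv]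
        have := o.Qf_pos hv
        have := o.Qf_pos hw
        positivity
      rw [div_le_iff₀ (by positivity)]
      calc 1 / 4 ≤ o.Vv v w * (o.Qf v / (F g o).Qf v * (o.Qf w / (F g o).Qf w)) := e2
        _ ≤ o.Vv v w * (M * M) := by gcongr
    exact s_ge_of_three q hD1 hD a hδ0 hδa g hsep
  · -- cocompact
    have hpos : 0 < 1 / (6 * q.C ^ 4 * D) := by positivity
    obtain ⟨c, hc, hcc⟩ := exists_V_ge h hpos
    refine ⟨closedBall o (8 / c), isCompact_closedBall _ _, ?_⟩
    rw [Set.eq_univ_iff_forall]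
    intro p
    obtain ⟨g, hg⟩ := exists_sep q hD1 hD (fun i => h.symm (tri p i))
      (fun i j hij he => tri_ne p i j hij (h.symm.injective he))
    have hb := bounded_of_three (F g p) (fun i => h (g • h.symm (tri p i))) hc
      (fun i j hij => hcc _ _ (hg i j hij)) (by
        intro i j hij
        have e1 := hFV g p (tri p i) (tri p j)
        rw [e1]
        exact tri_ge p i j hij)
    have hb2 : dist (F g p) o ≤ 8 / c := by
      have h1 : dist (F g p) o ≤ sinh (dist (F g p) o) := self_le_sinh_iff.2 dist_nonneg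
      have h2 := sinh_lt_cosh (dist (F g p) o)
      linarith
    rw [Set.mem_iUnion]
    refine ⟨g⁻¹, F g p, hb2, ?_⟩
    rw [hρ, ← hFm, inv_mul_cancel, hF1]

end P198H
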