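import Vale.Agent.P198.H3.Conf
import Vale.Agent.P198.H3.Geo3
import Vale.Agent.P198.Q.Zoom

/-!
# P198, block E: a conformal action on the 2-sphere with the `QM` axioms is geometric on `H3`
-/

open Metric Matrix OnePoint Filter Topology Set
open scoped ComplexConjugate

namespace P198H

open H3

/-- Geometric action, with finite kernel. -/
theorem geometric_of_moebius' {G Z : Type*} [Group G] [MetricSpace Z] [CompactSpace Z]
    [MulAction G Z] (q : P198Q.QM G Z) (h : Z ≃ₜ OnePoint ℂ)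
    (hm : ∀ g : G, IsMoeb (fun x => h (g • h.symm x))) :
    ∃ ρ : G →* (H3 ≃ᵢ H3), Finite ρ.ker ∧
      (∀ K : Set H3, IsCompact K → {g : G | ((ρ g) '' K ∩ K).Nonempty}.Finite) ∧
      ∃ K : Set H3, IsCompact K ∧ ⋃ g : G, (ρ g) '' K = Set.univ := by
  obtain ⟨ρ, h1, h2⟩ := geometric_of_moebius q h hm
  refine ⟨ρ, ?_, h1, h2⟩
  have h3 := h1 {o} isCompact_singleton
  have h4 : (ρ.ker : Set G).Finite := by
    refine h3.subset fun g hg => ?_
    have hg' : ρ g = 1 := MonoidHom.mem_ker.1 hg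
    refine ⟨o, ⟨o, rfl, ?_⟩, rfl⟩
    rw [hg']
    rfl
  exact h4.to_subtype

/-- **End of the proof.** If all elements of the group are holomorphic or antiholomorphic in a
global chart `h`, then the group acts geometrically on hyperbolic 3-space. -/
theorem geometric_of_conformal {G Z : Type*} [Group G] [MetricSpace Z] [CompactSpace Z]
    [MulAction G Z] (q : P198Q.QM G Z) (h : Z ≃ₜ OnePoint ℂ)
    (hm : ∀ g : G, ∃ f : ℂ → ℂ,
      (∀ z : ℂ, h (g • h.symm z) ≠ ∞ → (f z : OnePoint ℂ) = h (g • h.symm z)) ∧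
      (DifferentiableOn ℂ f {z : ℂ | h (g • h.symm z) ≠ ∞} ∨
        DifferentiableOn ℂ (fun z => conj (f z)) {z : ℂ | h (g • h.symm z) ≠ ∞})) :
    ∃ ρ : G →* (H3 ≃ᵢ H3), Finite ρ.ker ∧
      (∀ K : Set H3, IsCompact K → {g : G | ((ρ g) '' K ∩ K).Nonempty}.Finite) ∧
      ∃ K : Set H3, IsCompact K ∧ ⋃ g : G, (ρ g) '' K = Set.univ := by
  refine geometric_of_moebius' q h fun g => ?_
  obtain ⟨f, hf, hd⟩ := hm g
  refine isMoeb_of_holo_or_anti (γ := fun x => h (g • h.symm x)) ?_ ?_ hf hd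
  · exact h.continuous.comp ((P198Q.smul_continuous q g).comp h.symm.continuous)
  · exact h.bijective.comp ((MulAction.bijective g).comp h.symm.bijective)

/-- The same for local homeomorphisms. -/
theorem geometric_of_conformal' {G Z : Type*} [Group G] [MetricSpace Z] [CompactSpace Z]
    [MulAction G Z] (q : P198Q.QM G Z) (h : Z ≃ₜ OnePoint ℂ)
    (γ : G → OpenPartialHomeomorph ℂ ℂ)
    (hs : ∀ (g : G) (z : ℂ), h (g • h.symm z) ≠ ∞ → z ∈ (γ g).source)
    (hγ : ∀ (g : G) (z : ℂ), h (g • h.symm z) ≠ ∞ → (γ g z : OnePoint ℂ) = h (g • h.symm z))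
    (hd : ∀ g : G, DifferentiableOn ℂ (γ g) (γ g).source ∨
      DifferentiableOn ℂ (fun z => conj (γ g z)) (γ g).source) :
    ∃ ρ : G →* (H3 ≃ᵢ H3), Finite ρ.ker ∧
      (∀ K : Set H3, IsCompact K → {g : G | ((ρ g) '' K ∩ K).Nonempty}.Finite) ∧
      ∃ K : Set H3, IsCompact K ∧ ⋃ g : G, (ρ g) '' K = Set.univ :=
  geometric_of_conformal q h fun g => ⟨γ g, hγ g, (hd g).imp (fun h => h.mono (hs g))
    fun h => h.mono (hs g)⟩

end P198H
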