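import Vale.Agent.P198.H3.Ext

/-!
# P198, block E0: conformal homeomorphisms of the Riemann sphere are Moebius maps
-/

open Metric Matrix OnePoint Filter Topology Set Bornology
open scoped ComplexConjugate

namespace P198H

open H3

/-- An injective proper entire function is affine. -/
theorem affine_of_entire {f : ℂ → ℂ} (hinj : Function.Injective f) (hd : Differentiable ℂ f)
    (hp : Tendsto f (cobounded ℂ) (cobounded ℂ)) :
    ∃ a b : ℂ, a ≠ 0 ∧ ∀ z, f z = a * z + b := by
  -- a point where the derivative does not vanish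
  obtain ⟨c, hc⟩ : ∃ c, deriv f c ≠ 0 := by
    by_contra hcon
    push Not at hcon
    have h1 := is_const_of_deriv_eq_zero hd hcon 0 1
    exact zero_ne_one (hinj h1)
  -- the difference quotient
  have hh : Differentiable ℂ (dslope f c) := by
    rw [← differentiableOn_univ, Complex.differentiableOn_dslope univ_mem]
    exact hd.differentiableOn
  have hne : ∀ z, dslope f c z ≠ 0 := by
    intro z
    by_cases hz : z = c
    · rw [hz, dslope_same]
      exact hc
    · rw [dslope_of_ne _ hz, slope_def_field]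
      exact div_ne_zero (sub_ne_zero.2 fun h => hz (hinj h)) (sub_ne_zero.2 hz)
  -- behaviour at infinity
  set φ : ℂ → ℂ := fun w => (f (c + w⁻¹) - f c)⁻¹ with hφ
  have hφ0 : φ 0 = 0 := by simp [hφ]
  have hφc : ContinuousAt φ 0 := by
    rw [continuousAt_iff_punctured_nhds, hφ0]
    have h1 : Tendsto (fun w : ℂ => c + w⁻¹) (𝓝[≠] 0) (cobounded ℂ) :=
      (tendsto_const_add_cobounded c).comp tendsto_inv₀_nhdsNE_zero
    have h2 : Tendsto (fun w : ℂ => f (c + w⁻¹) - f c) (𝓝[≠] 0) (cobounded ℂ) := by
      have := (tendsto_const_add_cobounded (-f c)).comp (hp.comp h1)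
      refine this.congr fun w => ?_
      simp [Function.comp, sub_eq_add_neg, add_comm]
    exact tendsto_inv₀_cobounded.comp h2
  have hφd : ∀ᶠ w in 𝓝[≠] (0 : ℂ), DifferentiableAt ℂ φ w := by
    filter_upwards [self_mem_nhdsWithin] with w hw
    have hw' : w ≠ 0 := hw
    have h1 : f (c + w⁻¹) - f c ≠ 0 := by
      refine sub_ne_zero.2 fun h => ?_
      have := hinj h
      rw [add_eq_left, inv_eq_zero] at this
      exact hw' this
    have h2 : DifferentiableAt ℂ (fun w : ℂ => f (c + w⁻¹) - f c) w := by
      have h3 : DifferentiableAt ℂ (fun w : ℂ => c + w⁻¹) w :=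
        (differentiableAt_const c).add (differentiableAt_inv hw')
      exact ((hd _).comp w h3).sub_const _
    exact h2.inv h1
  have hφa := Complex.analyticAt_of_differentiable_on_punctured_nhds_of_continuousAt hφd hφc
  have hφO := hφa.differentiableAt.isBigO_sub
  rw [hφ0] at hφO
  simp only [sub_zero] at hφO
  obtain ⟨C, hC⟩ := hφO.bound
  -- the inverse of the difference quotient is bounded
  have hk : Differentiable ℂ (fun z => (dslope f c z)⁻¹) := fun z => (hh z).inv (hne z)
  have hfar : ∀ᶠ z in cobounded ℂ, ‖(dslope f c z)⁻¹‖ ≤ C := by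
    have h1 : Tendsto (fun z : ℂ => (z - c)⁻¹) (cobounded ℂ) (𝓝 0) :=
      tendsto_inv₀_cobounded.comp (by
        have := tendsto_const_add_cobounded (-c)
        refine this.congr fun w => ?_
        ring)
    have h2 : ∀ᶠ z : ℂ in cobounded ℂ, z ≠ c := by
      have h4 : ({c}ᶜ : Set ℂ) ∈ cobounded ℂ := isBounded_def.1 isBounded_singleton
      filter_upwards [h4] with z hz
      exact hz
    filter_upwards [h1.eventually hC, h2] with z hz hzc
    have hzc' : z - c ≠ 0 := sub_ne_zero.2 hzc
    rw [dslope_of_ne _ hzc, slope_def_field]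
    simp only [hφ, inv_inv, add_sub_cancel] at hz
    rw [norm_inv, norm_inv] at hz
    rw [norm_inv, norm_div, inv_div]
    have h3 : 0 < ‖z - c‖ := norm_pos_iff.2 hzc'
    rw [div_eq_mul_inv]
    calc ‖z - c‖ * ‖f z - f c‖⁻¹ ≤ ‖z - c‖ * (C * ‖z - c‖⁻¹) := by gcongr
      _ = C := by field_simp
  have hbd : IsBounded (range fun z => (dslope f c z)⁻¹) := by
    obtain ⟨R, hR⟩ := (hasBasis_cobounded_norm.eventually_iff.1 hfar)
    obtain ⟨D, hD⟩ := (isCompact_closedBall (0 : ℂ) R).exists_bound_of_continuousOn
      hk.continuous.continuousOn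
    rw [isBounded_iff_forall_norm_le]
    refine ⟨max C D, ?_⟩
    rintro _ ⟨z, rfl⟩
    rcases le_total R ‖z‖ with h | h
    · exact (hR.2 h).trans (le_max_left _ _)
    · exact (hD z (by simpa using h)).trans (le_max_right _ _)
  obtain ⟨a, ha⟩ : ∃ a, ∀ z, (dslope f c z)⁻¹ = a := hk.exists_const_forall_eq_of_bounded hbd
  have ha0 : a ≠ 0 := by
    rw [← ha c]
    exact inv_ne_zero (hne c)
  refine ⟨a⁻¹, f c - a⁻¹ * c, inv_ne_zero ha0, fun z => ?_⟩
  by_cases hz : z = c
  · rw [hz]
    ring
  · have h1 : dslope f c z = a⁻¹ := by rw [← ha z, inv_inv]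
    rw [dslope_of_ne _ hz, slope_def_field, div_eq_iff (sub_ne_zero.2 hz)] at h1
    linear_combination h1

/-- A continuous bijection of the Riemann sphere that is holomorphic where it is finite is a
Moebius map. -/
theorem exists_smul_of_holo {γ : OnePoint ℂ → OnePoint ℂ} (hc : Continuous γ)
    (hb : Function.Bijective γ) {f : ℂ → ℂ} (hf : ∀ z : ℂ, γ z ≠ ∞ → (f z : OnePoint ℂ) = γ z)
    (hd : DifferentiableOn ℂ f {z : ℂ | γ z ≠ ∞}) :
    ∃ A : GL (Fin 2) ℂ, ∀ x, γ x = A • x := by
  obtain ⟨p, hp⟩ := hb.2 ∞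
  have hcoc : coclosedCompact ℂ = cobounded ℂ := by
    rw [coclosedCompact_eq_cocompact, Metric.cobounded_eq_cocompact]
  cases p with
  | infty =>
    have hfin : ∀ z : ℂ, γ z ≠ ∞ := fun z h =>
      coe_ne_infty z (hb.1 (h.trans hp.symm))
    have hinj : Function.Injective f := fun z w h => by
      have h1 : γ z = γ w := by rw [← hf z (hfin z), ← hf w (hfin w), h]
      exact coe_injective (hb.1 h1)
    have hdf : Differentiable ℂ f := by
      rw [← differentiableOn_univ]
      exact hd.mono fun z _ => hfin z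
    have hpr : Tendsto f (cobounded ℂ) (cobounded ℂ) := by
      rw [← hcoc, ← comap_coe_nhds_infty, tendsto_comap_iff]
      have h1 : Tendsto γ (𝓝 ∞) (𝓝 ∞) := by
        have := hc.tendsto ∞
        rwa [hp] at this
      have h2 : ((↑) : ℂ → OnePoint ℂ) ∘ f = γ ∘ (↑) := by
        funext z
        exact hf z (hfin z)
      rw [h2]
      exact h1.comp tendsto_comap
    obtain ⟨a, b, ha, hab⟩ := affine_of_entire hinj hdf hpr
    refine ⟨GeneralLinearGroup.mkOfDetNeZero !![a, b; 0, 1] (by simpa using ha), fun x => ?_⟩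
    cases x with
    | infty =>
      rw [hp, smul_infty_eq_ite]
      simp [GeneralLinearGroup.mkOfDetNeZero]
    | coe z =>
      rw [smul_some_eq_ite, ← hf z (hfin z), hab]
      simp [GeneralLinearGroup.mkOfDetNeZero]
  | coe z₁ =>
    have hfin : ∀ z : ℂ, z ≠ z₁ → γ z ≠ ∞ := fun z h h2 =>
      h (coe_injective (hb.1 (h2.trans hp.symm)))
    have hinf : γ ∞ ≠ ∞ := fun h => infty_ne_coe z₁ (hb.1 (h.trans hp.symm))
    obtain ⟨b, hb'⟩ := ne_infty_iff_exists.1 hinf
    have hfb : ∀ z : ℂ, z ≠ z₁ → f z - b ≠ 0 := by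
      intro z hz h
      have h1 : γ z = γ ∞ := by rw [← hf z (hfin z hz), ← hb', sub_eq_zero.1 h]
      exact coe_ne_infty z (hb.1 h1)
    set k : ℂ → ℂ := fun z => if z = z₁ then 0 else (f z - b)⁻¹ with hk
    have hk0 : k z₁ = 0 := by simp [hk]
    have hk1 : ∀ z, z ≠ z₁ → k z = (f z - b)⁻¹ := fun z hz => by simp [hk, hz]
    have hinj : Function.Injective k := by
      intro z w h
      by_cases hz : z = z₁
      · by_cases hw : w = z₁
        · rw [hz, hw]
        · rw [hz, hk0, hk1 w hw] at h
          exact absurd h.symm (inv_ne_zero (hfb w hw))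
      · by_cases hw : w = z₁
        · rw [hw, hk0, hk1 z hz] at h
          exact absurd h (inv_ne_zero (hfb z hz))
        · rw [hk1 z hz, hk1 w hw, _root_.inv_inj, sub_left_inj] at h
          have h1 : γ z = γ w := by rw [← hf z (hfin z hz), ← hf w (hfin w hw), h]
          exact coe_injective (hb.1 h1)
    have hopen : IsOpen {z : ℂ | γ z ≠ ∞} :=
      (isOpen_compl_singleton (x := (∞ : OnePoint ℂ))).preimage (hc.comp continuous_coe)
    have hkd1 : ∀ z, z ≠ z₁ → DifferentiableAt ℂ k z := by
      intro z hz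
      have h1 : DifferentiableAt ℂ f z := hd.differentiableAt (hopen.mem_nhds (hfin z hz))
      have h2 : DifferentiableAt ℂ (fun z => (f z - b)⁻¹) z := (h1.sub_const b).inv (hfb z hz)
      refine h2.congr_of_eventuallyEq ?_
      filter_upwards [isOpen_ne.mem_nhds hz] with w hw
      exact hk1 w hw
    have hkc : ContinuousAt k z₁ := by
      rw [continuousAt_iff_punctured_nhds, hk0]
      have h1 : Tendsto f (𝓝[≠] z₁) (cobounded ℂ) := by
        rw [← hcoc, ← comap_coe_nhds_infty, tendsto_comap_iff]
        have h2 : Tendsto (γ ∘ (↑)) (𝓝[≠] z₁) (𝓝 ∞) := by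
          have := (hc.comp continuous_coe).tendsto z₁
          simp only [Function.comp_apply, hp] at this
          exact this.mono_left nhdsWithin_le_nhds
        refine h2.congr' ?_
        filter_upwards [self_mem_nhdsWithin] with z hz
        exact (hf z (hfin z hz)).symm
      have h3 : Tendsto (fun z => (f z - b)⁻¹) (𝓝[≠] z₁) (𝓝 0) := by
        refine tendsto_inv₀_cobounded.comp ?_
        have := (tendsto_const_add_cobounded (-b)).comp h1
        refine this.congr fun w => ?_
        simp [Function.comp, sub_eq_add_neg, add_comm]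
      refine h3.congr' ?_
      filter_upwards [self_mem_nhdsWithin] with z hz
      exact (hk1 z hz).symm
    have hkd : Differentiable ℂ k := by
      intro z
      by_cases hz : z = z₁
      · rw [hz]
        refine (Complex.analyticAt_of_differentiable_on_punctured_nhds_of_continuousAt ?_
          hkc).differentiableAt
        filter_upwards [self_mem_nhdsWithin] with z hz
        exact hkd1 z hz
      · exact hkd1 z hz
    have hpr : Tendsto k (cobounded ℂ) (cobounded ℂ) := by
      have h2 : ∀ᶠ z : ℂ in cobounded ℂ, z ≠ z₁ := by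
        have h4 : ({z₁}ᶜ : Set ℂ) ∈ cobounded ℂ := isBounded_def.1 isBounded_singleton
        filter_upwards [h4] with z hz
        exact hz
      have h1 : Tendsto f (cobounded ℂ) (𝓝 b) := by
        have h3 : Tendsto (γ ∘ (↑)) (cobounded ℂ) (𝓝 (b : OnePoint ℂ)) := by
          rw [← hcoc, ← comap_coe_nhds_infty, hb']
          exact (hc.tendsto ∞).comp tendsto_comap
        rw [← comap_coe_nhds b, tendsto_comap_iff]
        refine h3.congr' ?_
        filter_upwards [h2] with z hz
        exact (hf z (hfin z hz)).symm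
      have h3 : Tendsto (fun z => f z - b) (cobounded ℂ) (𝓝[≠] 0) := by
        rw [tendsto_nhdsWithin_iff]
        refine ⟨by simpa using h1.sub_const b, ?_⟩
        filter_upwards [h2] with z hz
        exact hfb z hz
      refine (tendsto_inv₀_nhdsNE_zero.comp h3).congr' ?_
      filter_upwards [h2] with z hz
      exact (hk1 z hz).symm
    obtain ⟨a, c, ha, hac⟩ := affine_of_entire hinj hkd hpr
    have hz₁ : a * z₁ + c = 0 := by rw [← hac, hk0]
    refine ⟨GeneralLinearGroup.mkOfDetNeZero !![b * a, b * c + 1; a, c] (by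
      rw [det_fin_two_of]
      have : b * a * c - (b * c + 1) * a = -a := by ring
      rw [this]
      exact neg_ne_zero.2 ha), fun x => ?_⟩
    cases x with
    | infty =>
      rw [← hb', smul_infty_eq_ite]
      simp [GeneralLinearGroup.mkOfDetNeZero, ha]
    | coe z =>
      rw [smul_some_eq_ite]
      simp only [GeneralLinearGroup.mkOfDetNeZero]
      by_cases hz : z = z₁
      · simp [hz, hz₁, hp]
      · have h1 : a * z + c ≠ 0 := by
          rw [← hac, hk1 z hz]
          exact inv_ne_zero (hfb z hz)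
        have h2 : f z = b + (a * z + c)⁻¹ := by
          rw [← hac, hk1 z hz, inv_inv]
          ring
        rw [← hf z (hfin z hz), h2]
        simp [h1]
        field_simp
        ring

/-- A continuous bijection of the Riemann sphere that is holomorphic or antiholomorphic where it is
finite is a Moebius or anti-Moebius map. -/
theorem isMoeb_of_holo_or_anti {γ : OnePoint ℂ → OnePoint ℂ} (hc : Continuous γ)
    (hb : Function.Bijective γ) {f : ℂ → ℂ} (hf : ∀ z : ℂ, γ z ≠ ∞ → (f z : OnePoint ℂ) = γ z)
    (hd : DifferentiableOn ℂ f {z : ℂ | γ z ≠ ∞} ∨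
      DifferentiableOn ℂ (fun z => conj (f z)) {z : ℂ | γ z ≠ ∞}) : IsMoeb γ := by
  rcases hd with hd | hd
  · obtain ⟨A, hA⟩ := exists_smul_of_holo hc hb hf hd
    exact ⟨A, Or.inl hA⟩
  · have hinv : ∀ x, cj (cj x) = x := by
      intro x
      cases x with
      | infty => rfl
      | coe x => simp [cj]
    have hcj : Continuous cj := by
      refine continuous_map Complex.continuous_conj ?_
      rw [coclosedCompact_eq_cocompact]
      exact (Complex.conjCLE.toHomeomorph.isClosedEmbedding.tendsto_cocompact)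
    have hbj : Function.Bijective cj := Function.Involutive.bijective hinv
    have hne : ∀ x, cj x ≠ ∞ ↔ x ≠ ∞ := by
      intro x
      cases x with
      | infty => simp [cj]
      | coe x => simp [cj]
    obtain ⟨A, hA⟩ := exists_smul_of_holo (γ := cj ∘ γ) (hcj.comp hc) (hbj.comp hb)
      (f := fun z => conj (f z)) (fun z hz => by
        have h1 : γ z ≠ ∞ := (hne _).1 hz
        rw [Function.comp_apply, ← hf z h1]
        rfl) (by
        refine hd.mono fun z hz => ?_
        exact (hne _).1 hz)
    refine ⟨A.map (starRingEnd ℂ), Or.inr fun x => ?_⟩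
    have h1 : γ x = cj (A • x) := by
      rw [← hA x, Function.comp_apply, hinv]
    rw [h1, cj, OnePoint.map_smul]
    rfl

/-- Version for homeomorphisms and local homeomorphisms. -/
theorem isMoeb_of_openPartialHomeomorph (γ : OnePoint ℂ ≃ₜ OnePoint ℂ)
    (e : OpenPartialHomeomorph ℂ ℂ) (hs : ∀ z : ℂ, γ z ≠ ∞ → z ∈ e.source)
    (hf : ∀ z : ℂ, γ z ≠ ∞ → (e z : OnePoint ℂ) = γ z)
    (hd : DifferentiableOn ℂ e e.source ∨ DifferentiableOn ℂ (fun z => conj (e z)) e.source) :
    IsMoeb γ :=
  isMoeb_of_holo_or_anti γ.continuous γ.bijective hf (hd.imp (fun h => h.mono hs) fun h => h.mono hs)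

end P198H
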