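import Vale.Agent.P198.H3.Conf
import Vale.Agent.P198.GL.Glue1

/-! # P198: E0 in the form used by the glue -/

open OnePoint

namespace P198H

theorem e0 : P198GL.E0 := by
  intro Φ hd
  refine isMoeb_of_openPartialHomeomorph Φ (P198S2.finPart Φ) (fun z hz => ?_) (fun z hz => ?_) hd
  · exact P198GL.mem_finPart_source.2 hz
  · exact P198GL.finPart_coe (P198GL.mem_finPart_source.2 hz)

end P198H
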