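import Vale.Agent.P198.H3.Model

/-!
# P198, block E2: Poincare extension of Moebius and anti-Moebius maps
-/

open Real Metric Matrix OnePoint
open scoped ComplexConjugate

namespace P198H

namespace H3

/-- The Hermitian matrix of a point of `H3`. -/
noncomputable def hm (p : H3) : Matrix (Fin 2) (Fin 2) ℂ :=
  !![((‖p.z‖ ^ 2 + p.t ^ 2) / p.t : ℂ), p.z / p.t; conj p.z / p.t, 1 / p.t]

theorem det_hm (p : H3) : p.hm.det = 1 := by
  have ht : (p.t : ℂ) ≠ 0 := by exact_mod_cast p.t_pos.ne'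
  rw [hm, det_fin_two_of]
  have h : p.z * conj p.z = (‖p.z‖ : ℂ) ^ 2 := Complex.mul_conj' p.z
  field_simp
  linear_combination -h

theorem hm_herm (p : H3) : p.hmᴴ = p.hm := by
  ext i j
  fin_cases i <;> fin_cases j <;> simp [hm]

/-- Existence of a point with given Hermitian matrix. -/
theorem exists_hm {M : Matrix (Fin 2) (Fin 2) ℂ} (hM : Mᴴ = M) (hdet : M.det = 1)
    (hpos : 0 < (M 1 1).re) : ∃ p : H3, p.hm = M := by
  have h11 : (M 1 1) = ((M 1 1).re : ℂ) := by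
    have := congrFun (congrFun hM 1) 1
    rw [conjTranspose_apply] at this
    exact (Complex.conj_eq_iff_real.1 this).elim (fun r hr => by rw [hr]; simp)
  have h10 : conj (M 0 1) = M 1 0 := by
    have := congrFun (congrFun hM 1) 0
    rwa [conjTranspose_apply] at this
  have h00 : M 0 0 * M 1 1 = 1 + M 0 1 * M 1 0 := by
    rw [det_fin_two] at hdet
    linear_combination hdet
  set r : ℝ := (M 1 1).re with hr
  have hrc : (r : ℂ) ≠ 0 := by exact_mod_cast hpos.ne'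
  refine ⟨⟨M 0 1 / r, 1 / r, by positivity⟩, ?_⟩
  ext i j
  fin_cases i <;> fin_cases j
  · simp only [hm, Fin.zero_eta, Fin.isValue, of_apply, cons_val', cons_val_zero, cons_val_fin_one]
    have h1 : ((‖M 0 1 / (r : ℂ)‖ : ℝ) : ℂ) ^ 2 = M 0 1 * M 1 0 / r ^ 2 := by
      rw [← Complex.mul_conj', map_div₀, Complex.conj_ofReal, h10]
      field_simp
    push_cast
    rw [h1]
    field_simp
    rw [h11] at h00
    linear_combination -h00
  · simp only [hm, Fin.zero_eta, Fin.isValue, Fin.mk_one, of_apply, cons_val', cons_val_one,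
      cons_val_fin_one, cons_val_zero]
    push_cast
    field_simp
  · simp only [hm, Fin.zero_eta, Fin.isValue, Fin.mk_one, of_apply, cons_val', cons_val_one,
      cons_val_fin_one, cons_val_zero]
    rw [map_div₀, Complex.conj_ofReal, h10]
    push_cast
    field_simp
  · simp only [hm, Fin.isValue, Fin.mk_one, of_apply, cons_val', cons_val_one,
      cons_val_fin_one]
    rw [h11]
    push_cast
    field_simp

/-- Distance through Hermitian matrices. -/
theorem cosh_dist_hm (p q : H3) :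
    (cosh (dist p q) : ℂ) = (p.hm.adjugate * q.hm).trace / 2 := by
  have ht : (p.t : ℂ) ≠ 0 := by exact_mod_cast p.t_pos.ne'
  have hs : (q.t : ℂ) ≠ 0 := by exact_mod_cast q.t_pos.ne'
  rw [cosh_dist, hm, hm, adjugate_fin_two_of]
  simp only [trace_fin_two, mul_apply, Fin.sum_univ_two, of_apply, cons_val', cons_val_zero,
    cons_val_one, cons_val_fin_one]
  push_cast
  have h : ((‖p.z - q.z‖ : ℝ) : ℂ) ^ 2 = (p.z - q.z) * (conj p.z - conj q.z) := by
    rw [← Complex.mul_conj', map_sub]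
  have h1 : ((‖p.z‖ : ℝ) : ℂ) ^ 2 = p.z * conj p.z := by
    rw [← Complex.mul_conj']
  have h2 : ((‖q.z‖ : ℝ) : ℂ) ^ 2 = q.z * conj q.z := by
    rw [← Complex.mul_conj']
  rw [h, h1, h2]
  field_simp
  ring

/-- The quadratic form of `p` on vectors. -/
noncomputable def Qf (p : H3) (v : Fin 2 → ℂ) : ℝ :=
  ‖v 0 - p.z * v 1‖ ^ 2 / p.t + ‖v 1‖ ^ 2 * p.t

theorem Qf_eq (p : H3) (v : Fin 2 → ℂ) :
    (p.Qf v : ℂ) = star v ⬝ᵥ (p.hm.adjugate *ᵥ v) := by
  have ht : (p.t : ℂ) ≠ 0 := by exact_mod_cast p.t_pos.ne'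
  rw [Qf, hm, adjugate_fin_two_of]
  simp only [dotProduct, mulVec, Fin.sum_univ_two, of_apply, cons_val', cons_val_zero,
    cons_val_one, cons_val_fin_one, Pi.star_apply, RCLike.star_def]
  push_cast
  have h : ((‖v 0 - p.z * v 1‖ : ℝ) : ℂ) ^ 2 =
      (v 0 - p.z * v 1) * (conj (v 0) - conj p.z * conj (v 1)) := by
    rw [← Complex.mul_conj', map_sub, map_mul]
  have h1 : ((‖p.z‖ : ℝ) : ℂ) ^ 2 = p.z * conj p.z := by
    rw [← Complex.mul_conj']
  have h2 : ((‖v 1‖ : ℝ) : ℂ) ^ 2 = v 1 * conj (v 1) := by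
    rw [← Complex.mul_conj']
  rw [h, h1, h2]
  field_simp
  ring

theorem Qf_pos (p : H3) {v : Fin 2 → ℂ} (hv : v ≠ 0) : 0 < p.Qf v := by
  have ht := p.t_pos
  rw [Qf]
  by_cases h1 : v 1 = 0
  · have h0 : v 0 ≠ 0 := by
      intro h0
      apply hv
      ext i
      fin_cases i
      · exact h0
      · exact h1
    rw [h1]
    have : 0 < ‖v 0 - p.z * 0‖ := by simpa using h0
    positivity
  · have : 0 < ‖v 1‖ := norm_pos_iff.2 h1
    positivity

/-- The complex determinant of two vectors. -/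
def dtv (v w : Fin 2 → ℂ) : ℂ := v 0 * w 1 - v 1 * w 0

/-- Visual function on vectors. -/
noncomputable def Vv (p : H3) (v w : Fin 2 → ℂ) : ℝ := ‖dtv v w‖ ^ 2 / (p.Qf v * p.Qf w)

/-- vector of a point of the Riemann sphere -/
def vec (x : OnePoint ℂ) : Fin 2 → ℂ := x.elim ![1, 0] (fun z => ![z, 1])

theorem vec_ne (x : OnePoint ℂ) : vec x ≠ 0 := by
  cases x with
  | infty =>
    intro h
    have := congrFun h 0
    simp [vec] at this
  | coe x =>
    intro h
    have := congrFun h 1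
    simp [vec] at this

theorem Qf_smul (p : H3) (c : ℂ) (v : Fin 2 → ℂ) : p.Qf (c • v) = ‖c‖ ^ 2 * p.Qf v := by
  rw [Qf, Qf]
  simp only [Pi.smul_apply, smul_eq_mul]
  rw [show c * v 0 - p.z * (c * v 1) = c * (v 0 - p.z * v 1) by ring, norm_mul, norm_mul]
  ring

theorem dtv_smul (c d : ℂ) (v w : Fin 2 → ℂ) : dtv (c • v) (d • w) = c * d * dtv v w := by
  simp only [dtv, Pi.smul_apply, smul_eq_mul]
  ring

theorem Vv_smul (p : H3) {c d : ℂ} (hc : c ≠ 0) (hd : d ≠ 0) (v w : Fin 2 → ℂ) :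
    p.Vv (c • v) (d • w) = p.Vv v w := by
  rw [Vv, Vv, dtv_smul, Qf_smul, Qf_smul, norm_mul, norm_mul]
  have h1 : ‖c‖ ≠ 0 := by simpa using hc
  have h2 : ‖d‖ ≠ 0 := by simpa using hd
  rw [show (‖c‖ * ‖d‖ * ‖dtv v w‖) ^ 2 = (‖c‖ ^ 2 * ‖d‖ ^ 2) * ‖dtv v w‖ ^ 2 by ring,
    show ‖c‖ ^ 2 * p.Qf v * (‖d‖ ^ 2 * p.Qf w) = (‖c‖ ^ 2 * ‖d‖ ^ 2) * (p.Qf v * p.Qf w) by ring,
    mul_div_mul_left]
  positivity

/-- The visual function on the Riemann sphere seen from `p`. -/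
noncomputable def V (p : H3) (x y : OnePoint ℂ) : ℝ := p.Vv (vec x) (vec y)

theorem exists_act {A : Matrix (Fin 2) (Fin 2) ℂ} (hA : A.det ≠ 0) (p : H3) :
    ∃ p' : H3, p'.hm = ((‖A.det‖⁻¹ : ℝ) : ℂ) • (A * p.hm * Aᴴ) := by
  have hn : 0 < ‖A.det‖ := norm_pos_iff.2 hA
  have hnc : ((‖A.det‖ : ℝ) : ℂ) ≠ 0 := by exact_mod_cast hn.ne'
  apply exists_hm
  · rw [conjTranspose_smul, conjTranspose_mul, conjTranspose_mul, conjTranspose_conjTranspose,
      hm_herm, Matrix.mul_assoc, RCLike.star_def, Complex.conj_ofReal]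
  · rw [det_smul, det_mul, det_mul, det_hm, det_conjTranspose, mul_one, Fintype.card_fin,
      RCLike.star_def, Complex.mul_conj']
    push_cast
    field_simp
  · have ht := p.t_pos
    have htc : (p.t : ℂ) ≠ 0 := by exact_mod_cast p.t_pos.ne'
    have key : (A * p.hm * Aᴴ) 1 1 =
        (((‖A 1 0 * p.z + A 1 1‖ ^ 2 + ‖A 1 0‖ ^ 2 * p.t ^ 2) / p.t : ℝ) : ℂ) := by
      rw [hm]
      simp only [mul_apply, Fin.sum_univ_two, of_apply, cons_val', cons_val_zero,
        cons_val_one, cons_val_fin_one, conjTranspose_apply, RCLike.star_def]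
      push_cast
      have h : ((‖A 1 0 * p.z + A 1 1‖ : ℝ) : ℂ) ^ 2 =
          (A 1 0 * p.z + A 1 1) * (conj (A 1 0) * conj p.z + conj (A 1 1)) := by
        rw [← Complex.mul_conj', map_add, map_mul]
      have h1 : ((‖p.z‖ : ℝ) : ℂ) ^ 2 = p.z * conj p.z := by
        rw [← Complex.mul_conj']
      have h2 : ((‖A 1 0‖ : ℝ) : ℂ) ^ 2 = A 1 0 * conj (A 1 0) := by
        rw [← Complex.mul_conj']
      rw [h, h1, h2]
      field_simp
      ring
    rw [Matrix.smul_apply, key, smul_eq_mul, ← Complex.ofReal_mul, Complex.ofReal_re]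
    have h3 : 0 < ‖A 1 0 * p.z + A 1 1‖ ^ 2 + ‖A 1 0‖ ^ 2 * p.t ^ 2 := by
      by_cases hc : A 1 0 = 0
      · have hd : A 1 1 ≠ 0 := by
          intro hd
          apply hA
          rw [det_fin_two, hc, hd]
          ring
        rw [hc]
        have : 0 < ‖(0 : ℂ) * p.z + A 1 1‖ := by simpa using hd
        positivity
      · have : 0 < ‖A 1 0‖ := norm_pos_iff.2 hc
        positivity
    positivity

theorem Qf_act {A : Matrix (Fin 2) (Fin 2) ℂ} (hA : A.det ≠ 0) {p p' : H3}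
    (h : p'.hm = ((‖A.det‖⁻¹ : ℝ) : ℂ) • (A * p.hm * Aᴴ)) (v : Fin 2 → ℂ) :
    p'.Qf (A *ᵥ v) = ‖A.det‖ * p.Qf v := by
  have hn : 0 < ‖A.det‖ := norm_pos_iff.2 hA
  have hnc : ((‖A.det‖ : ℝ) : ℂ) ≠ 0 := by exact_mod_cast hn.ne'
  have key : ((p'.Qf (A *ᵥ v) : ℝ) : ℂ) = ((‖A.det‖ * p.Qf v : ℝ) : ℂ) := by
    rw [Complex.ofReal_mul, Qf_eq, Qf_eq, h, adjugate_smul, adjugate_mul_distrib,
      adjugate_mul_distrib]
    have h1 : (((‖A.det‖⁻¹ : ℝ) : ℂ) ^ (Fintype.card (Fin 2) - 1) •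
        (Aᴴ.adjugate * (p.hm.adjugate * A.adjugate))) *ᵥ (A *ᵥ v) =
        (((‖A.det‖⁻¹ : ℝ) : ℂ) * A.det) • (Aᴴ.adjugate *ᵥ (p.hm.adjugate *ᵥ v)) := by
      rw [Fintype.card_fin, show (2 - 1 : ℕ) = 1 by norm_num, pow_one, smul_mulVec,
        mulVec_mulVec, Matrix.mul_assoc, Matrix.mul_assoc, adjugate_mul, mul_smul_comm,
        mul_smul_comm, Matrix.mul_one, smul_mulVec, mulVec_mulVec, smul_smul]
    rw [h1, dotProduct_smul, star_mulVec, ← dotProduct_mulVec, mulVec_mulVec, mul_adjugate,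
      smul_mulVec, one_mulVec, dotProduct_smul, det_conjTranspose, smul_eq_mul, smul_eq_mul,
      RCLike.star_def]
    have h2 : ((‖A.det‖ : ℝ) : ℂ) ^ 2 = A.det * conj A.det := by
      rw [← Complex.mul_conj']
    have h3 : (((‖A.det‖⁻¹ : ℝ) : ℂ) * A.det) * (conj A.det * (star v ⬝ᵥ p.hm.adjugate *ᵥ v)) =
        ((‖A.det‖⁻¹ : ℝ) : ℂ) * (A.det * conj A.det) * (star v ⬝ᵥ p.hm.adjugate *ᵥ v) := by ring
    rw [h3, ← h2]
    push_cast
    field_simp
  exact_mod_cast key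

theorem dist_act {A : Matrix (Fin 2) (Fin 2) ℂ} (hA : A.det ≠ 0) {p p' q q' : H3}
    (h : p'.hm = ((‖A.det‖⁻¹ : ℝ) : ℂ) • (A * p.hm * Aᴴ))
    (hq : q'.hm = ((‖A.det‖⁻¹ : ℝ) : ℂ) • (A * q.hm * Aᴴ)) : dist p' q' = dist p q := by
  have hn : 0 < ‖A.det‖ := norm_pos_iff.2 hA
  have hnc : ((‖A.det‖ : ℝ) : ℂ) ≠ 0 := by exact_mod_cast hn.ne'
  apply dist_eq_of_cosh
  have key : ((cosh (dist p' q') : ℝ) : ℂ) = ((cosh (dist p q) : ℝ) : ℂ) := by
    rw [cosh_dist_hm, cosh_dist_hm, h, hq, adjugate_smul, adjugate_mul_distrib,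
      adjugate_mul_distrib, Fintype.card_fin, show (2 - 1 : ℕ) = 1 by norm_num, pow_one]
    congr 1
    rw [smul_mul_assoc, mul_smul_comm, trace_smul, trace_smul]
    have h1 : Aᴴ.adjugate * (p.hm.adjugate * A.adjugate) * (A * q.hm * Aᴴ) =
        A.det • (Aᴴ.adjugate * (p.hm.adjugate * (q.hm * Aᴴ))) := by
      rw [Matrix.mul_assoc, Matrix.mul_assoc, Matrix.mul_assoc A, ← Matrix.mul_assoc A.adjugate,
        adjugate_mul, Matrix.smul_mul, Matrix.one_mul, mul_smul_comm, mul_smul_comm]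
    rw [h1, trace_smul, trace_mul_comm, Matrix.mul_assoc, Matrix.mul_assoc, mul_adjugate,
      mul_smul_comm, mul_smul_comm, trace_smul, Matrix.mul_one, det_conjTranspose, RCLike.star_def]
    simp only [smul_eq_mul]
    have h2 : ((‖A.det‖ : ℝ) : ℂ) ^ 2 = A.det * conj A.det := by
      rw [← Complex.mul_conj']
    have h3 : ((‖A.det‖⁻¹ : ℝ) : ℂ) * (((‖A.det‖⁻¹ : ℝ) : ℂ) *
        (A.det * (conj A.det * (p.hm.adjugate * q.hm).trace))) =
        ((‖A.det‖⁻¹ : ℝ) : ℂ) * ((‖A.det‖⁻¹ : ℝ) : ℂ) * (A.det * conj A.det) *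
          (p.hm.adjugate * q.hm).trace := by ring
    rw [h3, ← h2]
    push_cast
    field_simp
  exact_mod_cast key

theorem dtv_act (A : Matrix (Fin 2) (Fin 2) ℂ) (v w : Fin 2 → ℂ) :
    dtv (A *ᵥ v) (A *ᵥ w) = A.det * dtv v w := by
  rw [det_fin_two]
  simp only [dtv, mulVec, dotProduct, Fin.sum_univ_two]
  ring

theorem Vv_act {A : Matrix (Fin 2) (Fin 2) ℂ} (hA : A.det ≠ 0) {p p' : H3}
    (h : p'.hm = ((‖A.det‖⁻¹ : ℝ) : ℂ) • (A * p.hm * Aᴴ)) (v w : Fin 2 → ℂ) :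
    p'.Vv (A *ᵥ v) (A *ᵥ w) = p.Vv v w := by
  have hn : ‖A.det‖ ≠ 0 := (norm_pos_iff.2 hA).ne'
  rw [Vv, Vv, Qf_act hA h, Qf_act hA h, dtv_act, norm_mul,
    show (‖A.det‖ * ‖dtv v w‖) ^ 2 = ‖A.det‖ ^ 2 * ‖dtv v w‖ ^ 2 by ring,
    show ‖A.det‖ * p.Qf v * (‖A.det‖ * p.Qf w) = ‖A.det‖ ^ 2 * (p.Qf v * p.Qf w) by ring,
    mul_div_mul_left]
  positivity

set_option linter.unusedSimpArgs false in
theorem vec_smul (A : GL (Fin 2) ℂ) (x : OnePoint ℂ) :
    ∃ c : ℂ, c ≠ 0 ∧ vec (A • x) = c • ((A : Matrix (Fin 2) (Fin 2) ℂ) *ᵥ vec x) := by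
  have hdet : A 0 0 * A 1 1 - A 0 1 * A 1 0 ≠ 0 := by
    have := A.det_ne_zero
    rwa [det_fin_two] at this
  cases x with
  | infty =>
    rw [smul_infty_eq_ite]
    split_ifs with h
    · have h0 : A 0 0 ≠ 0 := by
        intro h0
        apply hdet
        rw [h, h0]
        ring
      refine ⟨(A 0 0)⁻¹, inv_ne_zero h0, ?_⟩
      ext i
      fin_cases i
      · simp [vec, mulVec, dotProduct, h0]
      · simp [vec, mulVec, dotProduct, h]
    · refine ⟨(A 1 0)⁻¹, inv_ne_zero h, ?_⟩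
      ext i
      fin_cases i
      · simp [vec, mulVec, dotProduct]
        field_simp
      · simp [vec, mulVec, dotProduct, h]
  | coe x =>
    rw [smul_some_eq_ite]
    split_ifs with h
    · have h0 : A 0 0 * x + A 0 1 ≠ 0 := by
        intro h0
        have h2 : (A 0 0 * A 1 1 - A 0 1 * A 1 0) * 1 = 0 := by
          by_cases hx : A 1 0 = 0
          · have h11 : A 1 1 = 0 := by simpa [hx] using h
            rw [hx, h11]
            ring
          · have : (A 0 0 * A 1 1 - A 0 1 * A 1 0) * A 1 0 = 0 := by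
              have e1 : A 1 1 = - (A 1 0 * x) := by linear_combination h
              have e2 : A 0 1 = - (A 0 0 * x) := by linear_combination h0
              rw [e1, e2]
              ring
            rcases mul_eq_zero.1 this with h3 | h3
            · rw [h3]; ring
            · exact absurd h3 hx
        apply hdet
        simpa using h2
      refine ⟨(A 0 0 * x + A 0 1)⁻¹, inv_ne_zero h0, ?_⟩
      ext i
      fin_cases i
      · simp [vec, mulVec, dotProduct, h0]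
      · simp [vec, mulVec, dotProduct, h]
    · refine ⟨(A 1 0 * x + A 1 1)⁻¹, inv_ne_zero h, ?_⟩
      ext i
      fin_cases i
      · simp [vec, mulVec, dotProduct]
        field_simp
      · simp [vec, mulVec, dotProduct, h]

theorem V_act (A : GL (Fin 2) ℂ) {p p' : H3}
    (h : p'.hm = ((‖(A : Matrix (Fin 2) (Fin 2) ℂ).det‖⁻¹ : ℝ) : ℂ) •
      ((A : Matrix (Fin 2) (Fin 2) ℂ) * p.hm * (A : Matrix (Fin 2) (Fin 2) ℂ)ᴴ))
    (x y : OnePoint ℂ) : p'.V (A • x) (A • y) = p.V x y := by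
  obtain ⟨c, hc, hcx⟩ := vec_smul A x
  obtain ⟨d, hd, hdy⟩ := vec_smul A y
  rw [V, V, hcx, hdy, Vv_smul _ hc hd, Vv_act A.det_ne_zero h]

/-- Complex conjugation of the Riemann sphere. -/
noncomputable def cj (x : OnePoint ℂ) : OnePoint ℂ := x.map (starRingEnd ℂ)

/-- The reflection of `H3` given by complex conjugation. -/
noncomputable def refl (p : H3) : H3 := ⟨conj p.z, p.t, p.t_pos⟩

theorem vec_cj (x : OnePoint ℂ) : vec (cj x) = star (vec x) := by
  cases x with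
  | infty =>
    ext i
    fin_cases i <;> simp [vec, cj]
  | coe x =>
    ext i
    fin_cases i <;> simp [vec, cj]

theorem Qf_refl (p : H3) (v : Fin 2 → ℂ) : p.refl.Qf (star v) = p.Qf v := by
  rw [Qf, Qf, refl]
  simp only [Pi.star_apply, RCLike.star_def]
  rw [← map_mul, ← map_sub, Complex.norm_conj, Complex.norm_conj]

theorem dtv_star (v w : Fin 2 → ℂ) : dtv (star v) (star w) = conj (dtv v w) := by
  simp only [dtv, Pi.star_apply, RCLike.star_def, map_sub, map_mul]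

theorem V_refl (p : H3) (x y : OnePoint ℂ) : p.refl.V (cj x) (cj y) = p.V x y := by
  rw [V, V, vec_cj, vec_cj, Vv, Vv, dtv_star, Qf_refl, Qf_refl, Complex.norm_conj]

theorem dist_refl (p q : H3) : dist p.refl q.refl = dist p q := by
  apply dist_eq_of_cosh
  rw [cosh_dist, cosh_dist, refl, refl]
  simp only
  rw [← map_sub, Complex.norm_conj]

/-- `p` is determined by its visual function. -/
theorem V_inj {p q : H3} (h : ∀ x y, p.V x y = q.V x y) : p = q := by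
  have hp := p.t_pos
  have hq := q.t_pos
  have key : ∀ (r : H3) (x : ℂ), r.V ∞ (x : OnePoint ℂ) =
      r.t ^ 2 / (‖x - r.z‖ ^ 2 + r.t ^ 2) := by
    intro r x
    have hr := r.t_pos
    have h1 : vec (∞ : OnePoint ℂ) = ![1, 0] := rfl
    have h2 : vec (x : OnePoint ℂ) = ![x, 1] := rfl
    rw [V, Vv, h1, h2, Qf, Qf, dtv]
    simp
    field_simp
  have h1 : q.V ∞ (p.z : OnePoint ℂ) = 1 := by
    rw [← h, key, sub_self, norm_zero]
    field_simp
    simp
  rw [key, div_eq_one_iff_eq (by positivity)] at h1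
  have h2 : ‖p.z - q.z‖ = 0 := by
    have := sq_nonneg ‖p.z - q.z‖
    have h3 : ‖p.z - q.z‖ ^ 2 = 0 := by linarith
    exact pow_eq_zero_iff (two_ne_zero) |>.1 h3
  have hz : p.z = q.z := sub_eq_zero.1 (norm_eq_zero.1 h2)
  have h4 := h ∞ ((p.z + 1 : ℂ) : OnePoint ℂ)
  rw [key, key, ← hz, add_sub_cancel_left, norm_one, one_pow] at h4
  have h5 : p.t ^ 2 = q.t ^ 2 := by
    rw [div_eq_div_iff (by positivity) (by positivity)] at h4
    linarith
  have h6 : p.t = q.t := by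
    nlinarith
  exact H3.ext hz h6

end H3

open H3

/-- Moebius and anti-Moebius maps of the Riemann sphere. -/
def IsMoeb (f : OnePoint ℂ → OnePoint ℂ) : Prop :=
  ∃ A : GL (Fin 2) ℂ, (∀ x, f x = A • x) ∨ (∀ x, f x = A • cj x)

/-- Poincare extension. -/
theorem IsMoeb.exists_ext {f : OnePoint ℂ → OnePoint ℂ} (hf : IsMoeb f) :
    ∃ F : H3 → H3, (∀ p x y, (F p).V (f x) (f y) = p.V x y) ∧
      ∀ p q, dist (F p) (F q) = dist p q := by
  obtain ⟨A, hA⟩ := hf
  choose F hF using fun p : H3 => exists_act (A := (A : Matrix (Fin 2) (Fin 2) ℂ)) A.det_ne_zero p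
  rcases hA with hA | hA
  · refine ⟨F, ?_, ?_⟩
    · intro p x y
      rw [hA, hA, V_act A (hF p)]
    · intro p q
      exact dist_act A.det_ne_zero (hF p) (hF q)
  · refine ⟨fun p => F p.refl, ?_, ?_⟩
    · intro p x y
      rw [hA, hA, V_act A (hF p.refl), V_refl]
    · intro p q
      rw [dist_act A.det_ne_zero (hF p.refl) (hF q.refl), dist_refl]

end P198H
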