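import Vale.Agent.P198.H3.Ext
import Vale.Agent.P198.Q.Defs

/-!
# P198, block E3: a group acting on a sphere by Moebius maps and satisfying the axioms `QM`
acts geometrically on hyperbolic 3-space.
-/

open Real Metric Matrix OnePoint
open scoped ComplexConjugate

namespace P198H

open H3

/-! ## Estimates for the visual function -/

/-- the base point -/
def o : H3 := ⟨0, 1, one_pos⟩

theorem Qf_o (v : Fin 2 → ℂ) : o.Qf v = ‖v 0‖ ^ 2 + ‖v 1‖ ^ 2 := by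
  rw [Qf, o]
  simp

theorem cosh_dist_o (p : H3) : cosh (dist p o) = (p.Qf ![1, 0] + p.Qf ![0, 1]) / 2 := by
  have ht := p.t_pos
  rw [cosh_dist, Qf, Qf, o]
  simp
  field_simp
  ring

/-- the Hermitian form is a norm square -/
theorem Qf_add_le (p : H3) (a b : ℂ) (v w : Fin 2 → ℂ) :
    p.Qf (a • v + b • w) ≤ 2 * (‖a‖ ^ 2 * p.Qf v + ‖b‖ ^ 2 * p.Qf w) := by
  have ht := p.t_pos
  have key : ∀ x y : ℂ, ‖x + y‖ ^ 2 ≤ 2 * (‖x‖ ^ 2 + ‖y‖ ^ 2) := by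
    intro x y
    have h1 := norm_add_le x y
    have h2 : ‖x + y‖ ^ 2 ≤ (‖x‖ + ‖y‖) ^ 2 := by gcongr
    nlinarith [sq_nonneg (‖x‖ - ‖y‖)]
  rw [Qf, Qf, Qf]
  simp only [Pi.add_apply, Pi.smul_apply, smul_eq_mul]
  have e1 : a * v 0 + b * w 0 - p.z * (a * v 1 + b * w 1) =
      a * (v 0 - p.z * v 1) + b * (w 0 - p.z * w 1) := by ring
  rw [e1]
  have k1 := key (a * (v 0 - p.z * v 1)) (b * (w 0 - p.z * w 1))
  have k2 := key (a * v 1) (b * w 1)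
  rw [norm_mul, norm_mul] at k1 k2
  have k3 : ‖a * (v 0 - p.z * v 1) + b * (w 0 - p.z * w 1)‖ ^ 2 / p.t ≤
      2 * ((‖a‖ * ‖v 0 - p.z * v 1‖) ^ 2 + (‖b‖ * ‖w 0 - p.z * w 1‖) ^ 2) / p.t := by gcongr
  have k4 : ‖a * v 1 + b * w 1‖ ^ 2 * p.t ≤
      2 * ((‖a‖ * ‖v 1‖) ^ 2 + (‖b‖ * ‖w 1‖) ^ 2) * p.t := by gcongr
  refine (add_le_add k3 k4).trans (le_of_eq ?_)
  ring

theorem cauchy_dtv (v w : Fin 2 → ℂ) : ‖dtv v w‖ ^ 2 ≤ o.Qf v * o.Qf w := by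
  rw [Qf_o, Qf_o, dtv]
  have h1 := norm_sub_le (v 0 * w 1) (v 1 * w 0)
  rw [norm_mul, norm_mul] at h1
  have h2 : ‖v 0 * w 1 - v 1 * w 0‖ ^ 2 ≤ (‖v 0‖ * ‖w 1‖ + ‖v 1‖ * ‖w 0‖) ^ 2 := by gcongr
  nlinarith [sq_nonneg (‖v 0‖ * ‖w 0‖ - ‖v 1‖ * ‖w 1‖)]

theorem Vv_o_le_one {v w : Fin 2 → ℂ} (hv : v ≠ 0) (hw : w ≠ 0) : o.Vv v w ≤ 1 := by
  rw [Vv, div_le_one (mul_pos (o.Qf_pos hv) (o.Qf_pos hw))]
  exact cauchy_dtv v w

/-- If the form of `p` is not much larger than that of `o` on two well separated vectors then `p` is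
close to `o`. -/
theorem Qf_le_of_two (p : H3) {v w : Fin 2 → ℂ} (hv : v ≠ 0) (hw : w ≠ 0)
    (h1 : p.Qf v ≤ 2 * o.Qf v) (h2 : p.Qf w ≤ 2 * o.Qf w) {c : ℝ} (hc : 0 < c)
    (h3 : c ≤ o.Vv v w) {e : Fin 2 → ℂ} (he : o.Qf e ≤ 1) : p.Qf e ≤ 8 / c := by
  have hv' := o.Qf_pos hv
  have hw' := o.Qf_pos hw
  rw [Vv, le_div_iff₀ (by positivity)] at h3
  have hd : 0 < ‖dtv v w‖ ^ 2 := lt_of_lt_of_le (by positivity) h3
  have e1 : dtv v w • e = dtv e w • v + dtv v e • w := by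
    ext i
    fin_cases i
    · simp [dtv]
      ring
    · simp [dtv]
      ring
  have k1 : ‖dtv v w‖ ^ 2 * p.Qf e ≤
      2 * (‖dtv e w‖ ^ 2 * p.Qf v + ‖dtv v e‖ ^ 2 * p.Qf w) := by
    rw [← Qf_smul, e1]
    exact Qf_add_le p _ _ _ _
  have he0 : 0 ≤ o.Qf e := by
    rw [Qf_o]
    positivity
  have k2 : ‖dtv e w‖ ^ 2 ≤ o.Qf w := by
    refine (cauchy_dtv e w).trans ?_
    nlinarith
  have k3 : ‖dtv v e‖ ^ 2 ≤ o.Qf v := by
    refine (cauchy_dtv v e).trans ?_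
    nlinarith
  have hpv : 0 < p.Qf v := p.Qf_pos hv
  have hpw : 0 < p.Qf w := p.Qf_pos hw
  have k4 : ‖dtv e w‖ ^ 2 * p.Qf v ≤ o.Qf w * (2 * o.Qf v) := by
    gcongr
  have k5 : ‖dtv v e‖ ^ 2 * p.Qf w ≤ o.Qf v * (2 * o.Qf w) := by
    gcongr
  have k6 : ‖dtv v w‖ ^ 2 * p.Qf e ≤ 8 * (o.Qf v * o.Qf w) := by
    nlinarith
  have k7 : ‖dtv v w‖ ^ 2 * p.Qf e * c ≤ 8 * ‖dtv v w‖ ^ 2 := by
    nlinarith
  rw [le_div_iff₀ hc]
  have k8 : ‖dtv v w‖ ^ 2 * (p.Qf e * c) ≤ ‖dtv v w‖ ^ 2 * 8 := by linarith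
  exact le_of_mul_le_mul_left k8 hd

theorem Vv_ratio (p : H3) {v w : Fin 2 → ℂ} (hv : v ≠ 0) (hw : w ≠ 0) :
    p.Vv v w = o.Vv v w * ((o.Qf v / p.Qf v) * (o.Qf w / p.Qf w)) := by
  have h1 := o.Qf_pos hv
  have h2 := o.Qf_pos hw
  have h3 := p.Qf_pos hv
  have h4 := p.Qf_pos hw
  rw [Vv, Vv]
  field_simp

/-- (B1) A point from which three points separated from the base point look separated is close to
the base point. -/
theorem bounded_of_three (p : H3) (x : Fin 3 → OnePoint ℂ) {c : ℝ} (hc : 0 < c)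
    (h1 : ∀ i j, i ≠ j → c ≤ o.V (x i) (x j)) (h2 : ∀ i j, i ≠ j → 1 / 4 ≤ p.V (x i) (x j)) :
    cosh (dist p o) ≤ 8 / c := by
  set P : Fin 3 → ℝ := fun i => o.Qf (vec (x i)) / p.Qf (vec (x i)) with hP
  have hPpos : ∀ i, 0 < P i := fun i => div_pos (o.Qf_pos (vec_ne _)) (p.Qf_pos (vec_ne _))
  have hprod : ∀ i j, i ≠ j → 1 / 4 ≤ P i * P j := by
    intro i j hij
    have k1 := h2 i j hij
    rw [V, Vv_ratio p (vec_ne _) (vec_ne _)] at k1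
    have k2 : o.Vv (vec (x i)) (vec (x j)) ≤ 1 := Vv_o_le_one (vec_ne _) (vec_ne _)
    have k3 : 0 < P i * P j := mul_pos (hPpos i) (hPpos j)
    calc 1 / 4 ≤ o.Vv (vec (x i)) (vec (x j)) * (P i * P j) := k1
      _ ≤ 1 * (P i * P j) := by gcongr
      _ = P i * P j := one_mul _
  -- two indices with `P ≥ 1/2`
  have htwo : ∃ i j, i ≠ j ∧ 1 / 2 ≤ P i ∧ 1 / 2 ≤ P j := by
    by_contra hcon
    push Not at hcon
    have h01 := hprod 0 1 (by decide)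
    have h02 := hprod 0 2 (by decide)
    have h12 := hprod 1 2 (by decide)
    have p0 := hPpos 0
    have p1 := hPpos 1
    have p2 := hPpos 2
    by_cases a0 : 1 / 2 ≤ P 0
    · have a1 := hcon 0 1 (by decide) a0
      have a2 := hcon 0 2 (by decide) a0
      nlinarith
    · push Not at a0
      by_cases a1 : 1 / 2 ≤ P 1
      · have a2 := hcon 1 2 (by decide) a1
        nlinarith
      · push Not at a1
        nlinarith
  obtain ⟨i, j, hij, hi, hj⟩ := htwo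
  have hi' : p.Qf (vec (x i)) ≤ 2 * o.Qf (vec (x i)) := by
    have := p.Qf_pos (vec_ne (x i))
    rw [hP] at hi
    simp only at hi
    rw [le_div_iff₀ this] at hi
    linarith
  have hj' : p.Qf (vec (x j)) ≤ 2 * o.Qf (vec (x j)) := by
    have := p.Qf_pos (vec_ne (x j))
    rw [hP] at hj
    simp only at hj
    rw [le_div_iff₀ this] at hj
    linarith
  have k1 : p.Qf ![1, 0] ≤ 8 / c :=
    Qf_le_of_two p (vec_ne _) (vec_ne _) hi' hj' hc (h1 i j hij) (by rw [Qf_o]; simp)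
  have k2 : p.Qf ![0, 1] ≤ 8 / c :=
    Qf_le_of_two p (vec_ne _) (vec_ne _) hi' hj' hc (h1 i j hij) (by rw [Qf_o]; simp)
  rw [cosh_dist_o]
  linarith

/-- (B3) -/
theorem Qf_o_le (p : H3) (v : Fin 2 → ℂ) : o.Qf v ≤ 2 * cosh (dist p o) * p.Qf v := by
  have ht := p.t_pos
  have h1 : 2 * cosh (dist p o) = (1 + ‖p.z‖ ^ 2 + p.t ^ 2) / p.t := by
    rw [cosh_dist_o, Qf, Qf]
    simp
    field_simp
    ring
  rw [h1, Qf_o, Qf]
  -- `t² (|v0|²+|v1|²) ≤ (1+|z|²+t²)(|v0 - z v1|² + |v1|² t²)`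
  have h2 : ‖v 0‖ ≤ ‖v 0 - p.z * v 1‖ + ‖p.z‖ * ‖v 1‖ := by
    have := norm_add_le (v 0 - p.z * v 1) (p.z * v 1)
    rw [sub_add_cancel, norm_mul] at this
    exact this
  have h3 : ‖v 0‖ ^ 2 ≤ (‖v 0 - p.z * v 1‖ + ‖p.z‖ * ‖v 1‖) ^ 2 := by gcongr
  set a := ‖v 0 - p.z * v 1‖ with ha
  set b := ‖v 1‖ with hb
  set r := ‖p.z‖ with hr
  have h4 : (a + r * b) ^ 2 + b ^ 2 ≤
      (1 + r ^ 2 + p.t ^ 2) / p.t * (a ^ 2 / p.t + b ^ 2 * p.t) := by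
    rw [show (1 + r ^ 2 + p.t ^ 2) / p.t * (a ^ 2 / p.t + b ^ 2 * p.t) =
      ((1 + r ^ 2 + p.t ^ 2) * (a ^ 2 + b ^ 2 * p.t ^ 2)) / p.t ^ 2 by field_simp]
    rw [le_div_iff₀ (by positivity)]
    have e : (1 + r ^ 2 + p.t ^ 2) * (a ^ 2 + b ^ 2 * p.t ^ 2) -
      ((a + r * b) ^ 2 + b ^ 2) * p.t ^ 2 = (a - r * b * p.t ^ 2) ^ 2 + (r * a) ^ 2 +
      (b * p.t ^ 2) ^ 2 - (r * b * p.t ^ 2) ^ 2 := by ring
    nlinarith [sq_nonneg (r * a - b * p.t ^ 2), sq_nonneg (a - r * b * p.t ^ 2), sq_nonneg (r * a),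
      sq_nonneg (b * p.t ^ 2), sq_nonneg (r * b)]
  linarith

/-! ## Continuity of the visual function -/

open Filter Topology

noncomputable def n1 (x : OnePoint ℂ) : ℝ := ‖vec x 1‖ ^ 2 / (‖vec x 0‖ ^ 2 + ‖vec x 1‖ ^ 2)
noncomputable def nb (x : OnePoint ℂ) : ℂ :=
  vec x 0 * conj (vec x 1) / ((‖vec x 0‖ ^ 2 + ‖vec x 1‖ ^ 2 : ℝ) : ℂ)

theorem vec_coe (x : ℂ) : vec (x : OnePoint ℂ) = ![x, 1] := rfl
theorem vec_infty : vec (∞ : OnePoint ℂ) = ![1, 0] := rfl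

theorem continuous_n1 : Continuous n1 := by
  rw [OnePoint.continuous_iff]
  constructor
  · have h1 : (fun x : ℂ => n1 (x : OnePoint ℂ)) = fun x => (‖x‖ ^ 2 + 1)⁻¹ := by
      ext x
      simp [n1, vec_coe]
    have h2 : n1 ∞ = 0 := by simp [n1, vec_infty]
    rw [h1, h2, coclosedCompact_eq_cocompact]
    apply Tendsto.inv_tendsto_atTop
    apply tendsto_atTop_add_const_right
    exact (tendsto_pow_atTop (two_ne_zero)).comp (tendsto_norm_cocompact_atTop (E := ℂ))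
  · have h1 : (fun x : ℂ => n1 (x : OnePoint ℂ)) = fun x => (‖x‖ ^ 2 + 1)⁻¹ := by
      ext x
      simp [n1, vec_coe]
    rw [h1]
    refine Continuous.inv₀ (by fun_prop) ?_
    intro x
    positivity

theorem continuous_nb : Continuous nb := by
  have h1 : (fun x : ℂ => nb (x : OnePoint ℂ)) = fun x => x / ((‖x‖ ^ 2 + 1 : ℝ) : ℂ) := by
    ext x
    simp [nb, vec_coe]
  rw [OnePoint.continuous_iff]
  constructor
  · have h2 : nb ∞ = 0 := by simp [nb, vec_infty]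
    rw [h1, h2, coclosedCompact_eq_cocompact]
    rw [tendsto_zero_iff_norm_tendsto_zero]
    have h3 : Tendsto (fun x : ℂ => ‖x‖⁻¹) (cocompact ℂ) (𝓝 0) :=
      (tendsto_inv_atTop_zero).comp (tendsto_norm_cocompact_atTop (E := ℂ))
    refine squeeze_zero (fun x => norm_nonneg _) ?_ h3
    intro x
    rw [norm_div, Complex.norm_real, Real.norm_eq_abs, abs_of_pos (by positivity)]
    by_cases hx : x = 0
    · simp [hx]
    · have : 0 < ‖x‖ := norm_pos_iff.2 hx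
      rw [div_le_iff₀ (by positivity)]
      field_simp
      linarith
  · rw [h1]
    refine Continuous.div continuous_id (by fun_prop) ?_
    intro x
    have : (0 : ℝ) < ‖x‖ ^ 2 + 1 := by positivity
    exact_mod_cast this.ne'

theorem V_o_eq (x y : OnePoint ℂ) :
    o.V x y = (1 - n1 x) * n1 y + n1 x * (1 - n1 y) - 2 * (nb x * conj (nb y)).re := by
  have hx := o.Qf_pos (vec_ne x)
  have hy := o.Qf_pos (vec_ne y)
  rw [V, Vv]
  rw [Qf_o] at hx hy ⊢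
  rw [Qf_o]
  set v := vec x
  set w := vec y
  have f1 : n1 x = ‖v 1‖ ^ 2 / (‖v 0‖ ^ 2 + ‖v 1‖ ^ 2) := rfl
  have f2 : n1 y = ‖w 1‖ ^ 2 / (‖w 0‖ ^ 2 + ‖w 1‖ ^ 2) := rfl
  have e1 : 1 - n1 x = ‖v 0‖ ^ 2 / (‖v 0‖ ^ 2 + ‖v 1‖ ^ 2) := by
    rw [f1]
    field_simp
    ring
  have e2 : 1 - n1 y = ‖w 0‖ ^ 2 / (‖w 0‖ ^ 2 + ‖w 1‖ ^ 2) := by
    rw [f2]
    field_simp
    ring
  have e3 : (nb x * conj (nb y)).re = (v 0 * conj (v 1) * (conj (w 0) * w 1)).re /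
      ((‖v 0‖ ^ 2 + ‖v 1‖ ^ 2) * (‖w 0‖ ^ 2 + ‖w 1‖ ^ 2)) := by
    have : nb x * conj (nb y) = (v 0 * conj (v 1) * (conj (w 0) * w 1)) /
      (((‖v 0‖ ^ 2 + ‖v 1‖ ^ 2) * (‖w 0‖ ^ 2 + ‖w 1‖ ^ 2) : ℝ) : ℂ) := by
      rw [nb, nb, map_div₀, map_mul, Complex.conj_conj, Complex.conj_ofReal]
      push_cast
      rw [div_mul_div_comm]
    rw [this, Complex.div_ofReal_re]
  rw [e1, e2, e3, f1, f2]
  have e4 : ‖dtv v w‖ ^ 2 = ‖v 0‖ ^ 2 * ‖w 1‖ ^ 2 + ‖v 1‖ ^ 2 * ‖w 0‖ ^ 2 -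
      2 * (v 0 * conj (v 1) * (conj (w 0) * w 1)).re := by
    rw [dtv]
    simp only [← Complex.normSq_eq_norm_sq, Complex.normSq_apply, Complex.sub_re, Complex.sub_im,
      Complex.mul_re, Complex.mul_im, Complex.conj_re, Complex.conj_im]
    ring
  rw [e4]
  field_simp

theorem continuous_V_o : Continuous (fun q : OnePoint ℂ × OnePoint ℂ => o.V q.1 q.2) := by
  simp_rw [V_o_eq]
  have h1 := continuous_n1
  have h2 := continuous_nb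
  fun_prop

theorem V_o_pos {x y : OnePoint ℂ} (h : x ≠ y) : 0 < o.V x y := by
  rw [V, Vv]
  have hx := o.Qf_pos (vec_ne x)
  have hy := o.Qf_pos (vec_ne y)
  have : 0 < ‖dtv (vec x) (vec y)‖ := by
    rw [norm_pos_iff]
    intro h0
    apply h
    cases x with
    | infty =>
      cases y with
      | infty => rfl
      | coe y => simp [dtv, vec_coe, vec_infty] at h0
    | coe x =>
      cases y with
      | infty => simp [dtv, vec_coe, vec_infty] at h0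
      | coe y =>
        simp [dtv, vec_coe] at h0
        rw [sub_eq_zero] at h0
        rw [h0]
  positivity

theorem V_self (p : H3) (x : OnePoint ℂ) : p.V x x = 0 := by
  have : dtv (vec x) (vec x) = 0 := by
    rw [dtv]
    ring
  rw [V, Vv, this]
  simp

end P198H
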