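import Vale.Agent.P198.H3.Geo

/-!
# P198, block E3: the geometric action
-/

open Real Metric Matrix OnePoint Filter Topology
open scoped ComplexConjugate

namespace P198H

open H3

section QMpart

variable {G Z : Type*} [Group G] [MetricSpace Z] [MulAction G Z]

/-- zoom in at a triple, ordered version -/
theorem exists_sep_aux (q : P198Q.QM G Z) {D : ℝ} (hD1 : 1 ≤ D) (hD : ∀ x y : Z, dist x y ≤ D)
    {a b d : Z} (hab : a ≠ b) (h1 : dist a b ≤ dist a d) (h2 : dist a b ≤ dist b d) :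
    ∃ g : G, 1 / (6 * q.C ^ 4 * D) ≤ dist (g • a) (g • b) ∧
      1 / (6 * q.C ^ 4 * D) ≤ dist (g • a) (g • d) ∧
      1 / (6 * q.C ^ 4 * D) ≤ dist (g • b) (g • d) := by
  have hC := q.one_le_C
  set C := q.C with hCdef
  have hr : 0 < dist a b := dist_pos.2 hab
  set r := dist a b with hrdef
  have hr' : 0 < min r 1 := lt_min hr one_pos
  obtain ⟨g, hg1, hg2, hg3⟩ := q.q4 a (min r 1) hr' (min_le_right _ _)
  rw [← hCdef] at hg1 hg2 hg3
  have hmin : min r 1 ≤ r := min_le_left _ _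
  have hrD : r ≤ min r 1 * D := by
    rcases le_total r 1 with h | h
    · rw [min_eq_left h]
      nlinarith
    · rw [min_eq_right h, one_mul]
      exact hD a b
  have hs := q.s_pos g
  have hC0 : 0 < C := by linarith
  have hCr : C * min r 1 ≤ C * r := by gcongr
  have ma : max (q.s g) (dist a (q.ζ g)) ≤ C * r := max_le (hg1.trans hCr) (hg3.trans hCr)
  have mb : max (q.s g) (dist b (q.ζ g)) ≤ 2 * C * r := by
    refine max_le ?_ ?_
    · nlinarith
    · have := dist_triangle b a (q.ζ g)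
      rw [dist_comm b a] at this
      nlinarith
  have md1 : max (q.s g) (dist d (q.ζ g)) ≤ 2 * C * dist a d := by
    refine max_le ?_ ?_
    · nlinarith
    · have := dist_triangle d a (q.ζ g)
      rw [dist_comm d a] at this
      nlinarith
  have md2 : max (q.s g) (dist d (q.ζ g)) ≤ 3 * C * dist b d := by
    refine max_le ?_ ?_
    · nlinarith
    · have k1 := dist_triangle d b (q.ζ g)
      have k2 := dist_triangle b a (q.ζ g)
      rw [dist_comm d b] at k1
      rw [dist_comm b a] at k2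
      nlinarith
  have ma0 : 0 < max (q.s g) (dist a (q.ζ g)) := lt_max_of_lt_left hs
  have mb0 : 0 < max (q.s g) (dist b (q.ζ g)) := lt_max_of_lt_left hs
  have md0 : 0 < max (q.s g) (dist d (q.ζ g)) := lt_max_of_lt_left hs
  have hsr : r ≤ C * q.s g * D := by
    refine hrD.trans ?_
    gcongr
  have hC4 : 0 < 6 * C ^ 4 * D := by positivity
  have hda : 0 < dist a d := lt_of_lt_of_le hr h1
  have hdb : 0 < dist b d := lt_of_lt_of_le hr h2
  refine ⟨g, ?_, ?_, ?_⟩
  · have k := q.q1_lower g a b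
    rw [← hCdef, ← hrdef] at k
    have k2 : q.s g * r ≤ C * (dist (g • a) (g • b) * (C * r * (2 * C * r))) := by
      refine k.trans ?_
      gcongr
    have k3 : q.s g * r ≤ (2 * C ^ 3 * r * dist (g • a) (g • b)) * r := by
      refine k2.trans (le_of_eq ?_)
      ring
    have k4 : q.s g ≤ 2 * C ^ 3 * r * dist (g • a) (g • b) := le_of_mul_le_mul_right k3 hr
    rw [div_le_iff₀ hC4]
    have k5 : q.s g * 1 ≤ q.s g * (dist (g • a) (g • b) * (6 * C ^ 4 * D)) := by
      have k6 : 2 * C ^ 3 * r * dist (g • a) (g • b) ≤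
          2 * C ^ 3 * (C * q.s g * D) * dist (g • a) (g • b) := by gcongr
      have k7 : (0 : ℝ) ≤ C ^ 4 * D * q.s g * dist (g • a) (g • b) := by positivity
      nlinarith
    exact le_of_mul_le_mul_left k5 hs
  · have k := q.q1_lower g a d
    rw [← hCdef] at k
    have k2 : q.s g * dist a d ≤ C * (dist (g • a) (g • d) * (C * r * (2 * C * dist a d))) := by
      refine k.trans ?_
      gcongr
    have k3 : q.s g * dist a d ≤ (2 * C ^ 3 * r * dist (g • a) (g • d)) * dist a d := by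
      refine k2.trans (le_of_eq ?_)
      ring
    have k4 : q.s g ≤ 2 * C ^ 3 * r * dist (g • a) (g • d) := le_of_mul_le_mul_right k3 hda
    rw [div_le_iff₀ hC4]
    have k5 : q.s g * 1 ≤ q.s g * (dist (g • a) (g • d) * (6 * C ^ 4 * D)) := by
      have k6 : 2 * C ^ 3 * r * dist (g • a) (g • d) ≤
          2 * C ^ 3 * (C * q.s g * D) * dist (g • a) (g • d) := by gcongr
      have k7 : (0 : ℝ) ≤ C ^ 4 * D * q.s g * dist (g • a) (g • d) := by positivity
      nlinarith
    exact le_of_mul_le_mul_left k5 hs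
  · have k := q.q1_lower g b d
    rw [← hCdef] at k
    have k2 : q.s g * dist b d ≤ C * (dist (g • b) (g • d) * (2 * C * r * (3 * C * dist b d))) := by
      refine k.trans ?_
      gcongr
    have k3 : q.s g * dist b d ≤ (6 * C ^ 3 * r * dist (g • b) (g • d)) * dist b d := by
      refine k2.trans (le_of_eq ?_)
      ring
    have k4 : q.s g ≤ 6 * C ^ 3 * r * dist (g • b) (g • d) := le_of_mul_le_mul_right k3 hdb
    rw [div_le_iff₀ hC4]
    have k5 : q.s g * 1 ≤ q.s g * (dist (g • b) (g • d) * (6 * C ^ 4 * D)) := by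
      have k6 : 6 * C ^ 3 * r * dist (g • b) (g • d) ≤
          6 * C ^ 3 * (C * q.s g * D) * dist (g • b) (g • d) := by gcongr
      have k7 : (0 : ℝ) ≤ C ^ 4 * D * q.s g * dist (g • b) (g • d) := by positivity
      nlinarith
    exact le_of_mul_le_mul_left k5 hs

/-- (B4) cocompactness on triples -/
theorem exists_sep (q : P198Q.QM G Z) {D : ℝ} (hD1 : 1 ≤ D) (hD : ∀ x y : Z, dist x y ≤ D)
    (a : Fin 3 → Z) (ha : ∀ i j, i ≠ j → a i ≠ a j) :
    ∃ g : G, ∀ i j, i ≠ j → 1 / (6 * q.C ^ 4 * D) ≤ dist (g • a i) (g • a j) := by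
  have key : ∀ {u v w : Z} (g : G), 1 / (6 * q.C ^ 4 * D) ≤ dist (g • u) (g • v) →
      1 / (6 * q.C ^ 4 * D) ≤ dist (g • u) (g • w) → 1 / (6 * q.C ^ 4 * D) ≤ dist (g • v) (g • w) →
      ∀ (a : Fin 3 → Z), ((a 0 = u ∧ a 1 = v ∧ a 2 = w) ∨ (a 0 = u ∧ a 1 = w ∧ a 2 = v) ∨
        (a 0 = w ∧ a 1 = u ∧ a 2 = v)) →
      ∀ i j, i ≠ j → 1 / (6 * q.C ^ 4 * D) ≤ dist (g • a i) (g • a j) := by
    intro u v w g h1 h2 h3 a ha i j hij
    rcases ha with ⟨h0, h1', h2'⟩ | ⟨h0, h1', h2'⟩ | ⟨h0, h1', h2'⟩ <;>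
      fin_cases i <;> fin_cases j <;>
      first
        | exact absurd rfl hij
        | (simp only [Fin.zero_eta, Fin.mk_one, Fin.reduceFinMk, h0, h1', h2']
           first
            | assumption
            | (rw [dist_comm]; assumption))
  have h01 := ha 0 1 (by decide)
  have h02 := ha 0 2 (by decide)
  have h12 := ha 1 2 (by decide)
  by_cases c1 : dist (a 0) (a 1) ≤ dist (a 0) (a 2) ∧ dist (a 0) (a 1) ≤ dist (a 1) (a 2)
  · obtain ⟨g, g1, g2, g3⟩ := exists_sep_aux q hD1 hD h01 c1.1 c1.2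
    exact ⟨g, key g g1 g2 g3 a (Or.inl ⟨rfl, rfl, rfl⟩)⟩
  · by_cases c2 : dist (a 0) (a 2) ≤ dist (a 0) (a 1) ∧ dist (a 0) (a 2) ≤ dist (a 1) (a 2)
    · obtain ⟨g, g1, g2, g3⟩ := exists_sep_aux q hD1 hD h02 c2.1 (by
        rw [dist_comm (a 2) (a 1)]; exact c2.2)
      exact ⟨g, key g g1 g2 g3 a (Or.inr (Or.inl ⟨rfl, rfl, rfl⟩))⟩
    · have c3 : dist (a 1) (a 2) ≤ dist (a 0) (a 1) ∧ dist (a 1) (a 2) ≤ dist (a 0) (a 2) := by
        rw [not_and_or, not_le, not_le] at c1 c2
        rcases c1 with c1 | c1 <;> rcases c2 with c2 | c2 <;>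
          exact ⟨by linarith, by linarith⟩
      obtain ⟨g, g1, g2, g3⟩ := exists_sep_aux q hD1 hD h12
        (by rw [dist_comm (a 1) (a 0)]; exact c3.1) (by rw [dist_comm (a 2) (a 0)]; exact c3.2)
      exact ⟨g, key g g1 g2 g3 a (Or.inr (Or.inr ⟨rfl, rfl, rfl⟩))⟩

/-- only finitely many elements of bounded contraction -/
theorem finite_of_s_ge (q : P198Q.QM G Z) {D : ℝ} (hD : ∀ x y : Z, dist x y ≤ D) {c : ℝ}
    (hc : 0 < c) : {g : G | c ≤ q.s g}.Finite := by
  have hs := q.s_pos 1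
  have hs1 := q.s_le_one 1
  set T : ℝ := max (1 / c) (max (1 / q.s 1) (D / q.s 1)) with hT
  have hT1 : 1 / c ≤ T := le_max_left _ _
  have hT2 : 1 / q.s 1 ≤ T := (le_max_left _ _).trans (le_max_right _ _)
  have hT3 : D / q.s 1 ≤ T := (le_max_right _ _).trans (le_max_right _ _)
  obtain ⟨n, hn⟩ := q.q3 T
  refine (hn 1).1.subset ?_
  intro g hg
  simp only [Set.mem_ofPred_eq] at hg ⊢
  rw [div_le_iff₀ hc] at hT1
  rw [div_le_iff₀ hs] at hT2 hT3
  have hT0 : 0 < T := lt_of_lt_of_le (by positivity) (le_max_left (1 / c) _)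
  refine ⟨?_, ?_, ?_⟩
  · calc q.s 1 ≤ 1 := hs1
      _ ≤ T * c := hT1
      _ ≤ T * q.s g := by gcongr
  · exact (q.s_le_one g).trans hT2
  · exact (hD _ _).trans hT3

/-- separated images of three separated points force a lower bound on the contraction -/
theorem s_ge_of_three (q : P198Q.QM G Z) {D : ℝ} (hD1 : 1 ≤ D) (hD : ∀ x y : Z, dist x y ≤ D)
    (a : Fin 3 → Z) {δ c : ℝ} (hδ : 0 < δ) (ha : ∀ i j, i ≠ j → δ ≤ dist (a i) (a j))
    (g : G) (hg : ∀ i j, i ≠ j → c ≤ dist (g • a i) (g • a j)) :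
    c * (δ / 2 * (δ / 2)) / (q.C * D) ≤ q.s g := by
  have hC : 0 < q.C := lt_of_lt_of_le one_pos q.one_le_C
  have hs := q.s_pos g
  -- two indices far from `ζ g`
  have htwo : ∃ i j, i ≠ j ∧ δ / 2 ≤ dist (a i) (q.ζ g) ∧ δ / 2 ≤ dist (a j) (q.ζ g) := by
    have tri : ∀ i j, i ≠ j → δ ≤ dist (a i) (q.ζ g) + dist (a j) (q.ζ g) := by
      intro i j hij
      have := dist_triangle_right (a i) (a j) (q.ζ g)
      exact (ha i j hij).trans this
    by_contra hcon
    push Not at hcon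
    have t01 := tri 0 1 (by decide)
    have t02 := tri 0 2 (by decide)
    have t12 := tri 1 2 (by decide)
    by_cases a0 : δ / 2 ≤ dist (a 0) (q.ζ g)
    · have b1 := hcon 0 1 (by decide) a0
      have b2 := hcon 0 2 (by decide) a0
      linarith
    · push Not at a0
      by_cases a1 : δ / 2 ≤ dist (a 1) (q.ζ g)
      · have b2 := hcon 1 2 (by decide) a1
        linarith
      · push Not at a1
        linarith
  obtain ⟨i, j, hij, hi, hj⟩ := htwo
  have k := q.q1_upper g (a i) (a j)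
  have k1 : c * (δ / 2 * (δ / 2)) ≤ q.C * (q.s g * D) := by
    calc c * (δ / 2 * (δ / 2)) ≤ dist (g • a i) (g • a j) *
          (max (q.s g) (dist (a i) (q.ζ g)) * max (q.s g) (dist (a j) (q.ζ g))) := by
          have := hg i j hij
          have l1 : δ / 2 ≤ max (q.s g) (dist (a i) (q.ζ g)) := hi.trans (le_max_right _ _)
          have l2 : δ / 2 ≤ max (q.s g) (dist (a j) (q.ζ g)) := hj.trans (le_max_right _ _)
          gcongr
      _ ≤ q.C * (q.s g * dist (a i) (a j)) := k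
      _ ≤ q.C * (q.s g * D) := by
          have := hD (a i) (a j)
          gcongr
  rw [div_le_iff₀ (by positivity)]
  linarith

end QMpart

end P198H
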