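import Vale.Agent.P198.H3.Defs

/-!
# P198, block E1: hyperbolic 3-space is proper
-/

open Real Metric

namespace P198H

namespace H3

theorem cosh_dist_mul (p q : H3) :
    2 * p.t * q.t * (cosh (dist p q) - 1) = ‖p.z - q.z‖ ^ 2 + (p.t - q.t) ^ 2 := by
  have hp := p.t_pos
  have hq := q.t_pos
  rw [cosh_dist]
  field_simp
  ring

theorem dist_le_iff {p q : H3} {r : ℝ} (hr : 0 ≤ r) :
    dist p q ≤ r ↔ ‖p.z - q.z‖ ^ 2 + (p.t - q.t) ^ 2 ≤ 2 * p.t * q.t * (cosh r - 1) := by
  have hp := p.t_pos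
  have hq := q.t_pos
  have h1 : 0 < 2 * p.t * q.t := by positivity
  rw [← cosh_dist_mul, mul_le_mul_iff_right₀ h1, sub_le_sub_iff_right, cosh_le_cosh,
    abs_of_nonneg dist_nonneg, abs_of_nonneg hr]

/-- Two points with the same `cosh` of distance. -/
theorem dist_eq_of_cosh {p q p' q' : H3} (h : cosh (dist p q) = cosh (dist p' q')) :
    dist p q = dist p' q' := by
  have h1 := cosh_le_cosh.1 h.le
  have h2 := cosh_le_cosh.1 h.ge
  rw [abs_of_nonneg dist_nonneg, abs_of_nonneg dist_nonneg] at h1 h2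
  exact le_antisymm h1 h2

/-- The coordinate map from the Euclidean half-space. -/
def ofSub (x : {x : ℂ × ℝ // 0 < x.2}) : H3 := ⟨x.1.1, x.1.2, x.2⟩

theorem continuous_ofSub : Continuous ofSub := by
  rw [continuous_iff_continuousAt]
  intro x0
  rw [ContinuousAt, tendsto_iff_dist_tendsto_zero]
  have h0 : (0 : ℝ) < x0.1.2 := x0.2
  have hc : Continuous (fun x : {x : ℂ × ℝ // 0 < x.2} =>
      √(‖x.1.1 - x0.1.1‖ ^ 2 + (x.1.2 - x0.1.2) ^ 2)) := by
    fun_prop
  have hc2 : Continuous (fun x : {x : ℂ × ℝ // 0 < x.2} => 2 * √(x.1.2 * x0.1.2)) := by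
    fun_prop
  have hne : ∀ x : {x : ℂ × ℝ // 0 < x.2}, 2 * √(x.1.2 * x0.1.2) ≠ 0 := by
    intro x
    have : 0 < x.1.2 * x0.1.2 := mul_pos x.2 x0.2
    positivity
  have hc3 : Continuous (fun x : {x : ℂ × ℝ // 0 < x.2} =>
      2 * arsinh (√(‖x.1.1 - x0.1.1‖ ^ 2 + (x.1.2 - x0.1.2) ^ 2) / (2 * √(x.1.2 * x0.1.2)))) :=
    continuous_const.mul (continuous_arsinh.comp (hc.div hc2 hne))
  have h1 := hc3.tendsto x0
  have h2 : (2 * arsinh (√(‖x0.1.1 - x0.1.1‖ ^ 2 + (x0.1.2 - x0.1.2) ^ 2) /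
      (2 * √(x0.1.2 * x0.1.2)))) = 0 := by simp
  rw [h2] at h1
  refine h1.congr ?_
  intro x
  rw [dist_eq, dist_toE]
  rfl

theorem isCompact_closedBall_aux (p : H3) {r : ℝ} (hr : 0 ≤ r) : IsCompact (closedBall p r) := by
  have himg : closedBall p r = ofSub '' {x | dist (ofSub x) p ≤ r} := by
    ext q
    simp only [mem_closedBall, Set.mem_image, Set.mem_ofPred_eq]
    constructor
    · intro h
      exact ⟨⟨(q.z, q.t), q.t_pos⟩, h, rfl⟩
    · rintro ⟨x, hx, rfl⟩
      exact hx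
  rw [himg]
  refine IsCompact.image ?_ continuous_ofSub
  rw [Subtype.isCompact_iff]
  have hset : (Subtype.val '' {x : {x : ℂ × ℝ // 0 < x.2} | dist (ofSub x) p ≤ r}) =
      {x : ℂ × ℝ | ‖x.1 - p.z‖ ^ 2 + (x.2 - p.t) ^ 2 ≤ 2 * x.2 * p.t * (cosh r - 1)} := by
    ext x
    simp only [Set.mem_image, Set.mem_ofPred_eq, Subtype.exists, exists_and_right, exists_eq_right]
    constructor
    · rintro ⟨hx, h⟩
      exact (dist_le_iff hr).1 h
    · intro h
      have hx : 0 < x.2 := by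
        by_contra hneg
        push Not at hneg
        have h1 : 2 * x.2 * p.t * (cosh r - 1) ≤ 0 := by
          have h2 : 0 ≤ cosh r - 1 := by linarith [one_le_cosh r]
          have h3 : 2 * x.2 * p.t ≤ 0 := by
            have := p.t_pos
            nlinarith
          exact mul_nonpos_of_nonpos_of_nonneg h3 h2
        have h4 : (x.2 - p.t) ^ 2 ≤ 0 := by
          have := sq_nonneg ‖x.1 - p.z‖
          linarith
        have h5 : x.2 - p.t = 0 := by
          have := sq_nonneg (x.2 - p.t)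
          exact pow_eq_zero_iff (two_ne_zero) |>.1 (le_antisymm h4 this)
        have := p.t_pos
        linarith
      exact ⟨hx, (dist_le_iff (p := ofSub ⟨x, hx⟩) (q := p) hr).2 h⟩
  rw [hset]
  rw [Metric.isCompact_iff_isClosed_bounded]
  constructor
  · exact isClosed_le (by fun_prop) (by fun_prop)
  · have ht := p.t_pos
    have hc : 0 ≤ cosh r - 1 := by linarith [one_le_cosh r]
    -- t ≤ 2 t_p cosh r, |z - z_p|^2 ≤ 2 (2 t_p cosh r) t_p (cosh r - 1)
    set B : ℝ := 2 * p.t * cosh r with hB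
    have hB0 : 0 ≤ B := by
      have := (cosh_pos r).le
      positivity
    rw [Metric.isBounded_iff_subset_closedBall ((0 : ℂ), (0 : ℝ))]
    refine ⟨‖p.z‖ + (1 + 2 * B * p.t * (cosh r - 1)) + B, ?_⟩
    intro x hx
    simp only [Set.mem_ofPred_eq] at hx
    have h1 : (x.2 - p.t) ^ 2 ≤ 2 * x.2 * p.t * (cosh r - 1) := by
      have := sq_nonneg ‖x.1 - p.z‖
      linarith
    have hx2 : 0 ≤ x.2 := by
      by_contra hneg
      push Not at hneg
      have h3 : 2 * x.2 * p.t * (cosh r - 1) ≤ 0 := by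
        have : 2 * x.2 * p.t ≤ 0 := by nlinarith
        exact mul_nonpos_of_nonpos_of_nonneg this hc
      nlinarith [sq_nonneg (x.2 - p.t)]
    have h2 : x.2 ≤ B := by
      by_contra hlt
      push Not at hlt
      have h3 : x.2 ^ 2 - B * x.2 ≤ 0 := by
        rw [hB]
        nlinarith [sq_nonneg p.t]
      nlinarith
    have h4 : ‖x.1 - p.z‖ ^ 2 ≤ 2 * B * p.t * (cosh r - 1) := by
      have h5 : 2 * x.2 * p.t * (cosh r - 1) ≤ 2 * B * p.t * (cosh r - 1) := by
        gcongr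
      have := sq_nonneg (x.2 - p.t)
      linarith
    have h6 : ‖x.1 - p.z‖ ≤ 1 + 2 * B * p.t * (cosh r - 1) := by
      nlinarith [norm_nonneg (x.1 - p.z), sq_nonneg (‖x.1 - p.z‖ - 1)]
    have h7 : ‖x.1‖ ≤ ‖p.z‖ + (1 + 2 * B * p.t * (cosh r - 1)) := by
      have := norm_sub_norm_le x.1 p.z
      linarith
    have h8 : 0 ≤ 2 * B * p.t * (cosh r - 1) := by positivity
    rw [mem_closedBall, ← Prod.zero_eq_mk, dist_zero_right, Prod.norm_def]
    refine max_le (by linarith) ?_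
    rw [Real.norm_eq_abs, abs_of_nonneg hx2]
    have := norm_nonneg p.z
    linarith

instance : ProperSpace H3 :=
  ProperSpace.of_isCompact_closedBall_of_le 0 (fun p _ hr => isCompact_closedBall_aux p hr)

end H3

end P198H
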